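import Mathlib.Analysis.MeanInequalities
import Mathlib.Analysis.MeanInequalitiesPow
import Mathlib.Analysis.Convex.SpecificFunctions.Basic
import Mathlib.Analysis.SpecialFunctions.Log.Basic
import Mathlib.Analysis.SpecialFunctions.Pow.Real

/-! Finite `ℓ_p` norms of real vectors and elementary real inequalities. -/

open Finset

namespace Vale.Agent.P249

/-- The `ℓ_p` norm of a finite real vector. -/
noncomputable def lpn (p : ℝ) {T : Type*} [Fintype T] (v : T → ℝ) : ℝ :=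
  (∑ t, |v t| ^ p) ^ (1 / p)

section lpn
variable {p : ℝ} {T : Type*} [Fintype T]

lemma sum_abs_rpow_nonneg (v : T → ℝ) : 0 ≤ ∑ t, |v t| ^ p :=
  sum_nonneg fun _ _ => Real.rpow_nonneg (abs_nonneg _) _

lemma lpn_nonneg (v : T → ℝ) : 0 ≤ lpn p v :=
  Real.rpow_nonneg (sum_abs_rpow_nonneg v) _

lemma lpn_rpow (hp : 0 < p) (v : T → ℝ) : lpn p v ^ p = ∑ t, |v t| ^ p := by
  unfold lpn
  rw [← Real.rpow_mul (sum_abs_rpow_nonneg v), one_div_mul_cancel hp.ne', Real.rpow_one]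

lemma lpn_le_of_sum_le (hp : 0 < p) (v : T → ℝ) {a : ℝ} (ha : 0 ≤ a)
    (h : ∑ t, |v t| ^ p ≤ a ^ p) : lpn p v ≤ a := by
  rw [← lpn_rpow hp] at h
  exact (Real.rpow_le_rpow_iff (lpn_nonneg v) ha hp).1 h

lemma le_lpn_of_le_sum (hp : 0 < p) (v : T → ℝ) {a : ℝ} (ha : 0 ≤ a)
    (h : a ^ p ≤ ∑ t, |v t| ^ p) : a ≤ lpn p v := by
  rw [← lpn_rpow hp] at h
  exact (Real.rpow_le_rpow_iff ha (lpn_nonneg v) hp).1 h

lemma lpn_add_le (hp : 1 ≤ p) (v w : T → ℝ) :
    lpn p (fun t => v t + w t) ≤ lpn p v + lpn p w :=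
  Real.Lp_add_le univ v w hp

lemma lpn_neg (v : T → ℝ) : lpn p (fun t => - v t) = lpn p v := by
  simp [lpn]

lemma lpn_sub_comm (v w : T → ℝ) :
    lpn p (fun t => v t - w t) = lpn p (fun t => w t - v t) := by
  simp [lpn, abs_sub_comm]

lemma lpn_zero (hp : 0 < p) : lpn p (fun _ : T => (0 : ℝ)) = 0 := by
  have : (1 / p) ≠ 0 := by positivity
  simp only [lpn, abs_zero, Real.zero_rpow hp.ne', sum_const_zero, Real.zero_rpow this]

lemma lpn_mul (hp : 0 < p) (c : ℝ) (v : T → ℝ) :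
    lpn p (fun t => c * v t) = |c| * lpn p v := by
  unfold lpn
  have : ∀ t, |c * v t| ^ p = |c| ^ p * |v t| ^ p := fun t => by
    rw [abs_mul, Real.mul_rpow (abs_nonneg _) (abs_nonneg _)]
  simp_rw [this, ← mul_sum]
  rw [Real.mul_rpow (Real.rpow_nonneg (abs_nonneg _) _) (sum_abs_rpow_nonneg v),
    ← Real.rpow_mul (abs_nonneg _), mul_one_div_cancel hp.ne', Real.rpow_one]

lemma lpn_sum_le (hp : 1 ≤ p) {ι : Type*} (s : Finset ι) (v : ι → T → ℝ) :
    lpn p (fun t => ∑ i ∈ s, v i t) ≤ ∑ i ∈ s, lpn p (v i) := by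
  classical
  induction s using Finset.induction_on with
  | empty => simp [lpn_zero (p := p) (T := T) (by linarith)]
  | insert a s ha ih =>
    simp_rw [sum_insert ha]
    exact (lpn_add_le hp _ _).trans (by linarith)

lemma lpn_triangle (hp : 1 ≤ p) (u v w : T → ℝ) :
    lpn p (fun t => u t - w t) ≤ lpn p (fun t => u t - v t) + lpn p (fun t => v t - w t) := by
  have := lpn_add_le hp (fun t => u t - v t) (fun t => v t - w t)
  simpa using this

lemma abs_lpn_sub_le (hp : 1 ≤ p) (v w : T → ℝ) :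
    |lpn p v - lpn p w| ≤ lpn p (fun t => v t - w t) := by
  have h1 := lpn_add_le hp (fun t => v t - w t) w
  have h2 := lpn_add_le hp (fun t => w t - v t) v
  rw [lpn_sub_comm] at h2
  simp only [sub_add_cancel] at h1 h2
  rw [abs_le]
  constructor
  · have : lpn p (fun t => w t) = lpn p w := rfl
    linarith
  · have : lpn p (fun t => v t) = lpn p v := rfl
    linarith

lemma abs_le_lpn (hp : 0 < p) (v : T → ℝ) (t : T) : |v t| ≤ lpn p v :=
  le_lpn_of_le_sum hp v (abs_nonneg _)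
    (single_le_sum (f := fun t => |v t| ^ p)
      (fun _ _ => Real.rpow_nonneg (abs_nonneg _) _) (mem_univ t))

end lpn

section ineq

/-- `x ^ q - y ^ q ≤ q x ^ (q-1) (x - y)` for `0 ≤ y ≤ x` and `q ≥ 1`. -/
lemma rpow_sub_rpow_le {q x y : ℝ} (hq : 1 ≤ q) (hy : 0 ≤ y) (hxy : y ≤ x) :
    x ^ q - y ^ q ≤ q * x ^ (q - 1) * (x - y) := by
  rcases eq_or_lt_of_le (hy.trans hxy) with hx | hx
  · have : y = 0 := le_antisymm (hx ▸ hxy) hy
    rw [← hx, this]; simp
  have h := one_add_mul_self_le_rpow_one_add (s := y / x - 1)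
    (by have : 0 ≤ y / x := by positivity
        linarith) hq
  have h1 : 1 + (y / x - 1) = y / x := by ring
  rw [h1, Real.div_rpow hy hx.le, le_div_iff₀ (Real.rpow_pos_of_pos hx q)] at h
  have h2 : x ^ q = x ^ (q - 1) * x := by
    rw [Real.rpow_sub_one hx.ne']; field_simp
  have h3 : (1 + q * (y / x - 1)) * x ^ q = x ^ q - q * x ^ (q - 1) * (x - y) := by
    rw [h2]; field_simp; ring
  linarith

lemma abs_rpow_sub_le_of_one_le {q a b M : ℝ} (hq : 1 ≤ q) (ha : |a| ≤ M) (hb : |b| ≤ M) :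
    abs (|a| ^ q - |b| ^ q) ≤ q * M ^ (q - 1) * |a - b| := by
  have key : ∀ a b : ℝ, |a| ≤ M → |b| ≤ |a| →
      abs (|a| ^ q - |b| ^ q) ≤ q * M ^ (q - 1) * |a - b| := by
    intro a b ha hba
    have h0 : 0 ≤ |a| ^ q - |b| ^ q :=
      sub_nonneg.2 (Real.rpow_le_rpow (abs_nonneg _) hba (by linarith))
    rw [abs_of_nonneg h0]
    refine (rpow_sub_rpow_le hq (abs_nonneg b) hba).trans ?_
    have h1 : |a| ^ (q - 1) ≤ M ^ (q - 1) := Real.rpow_le_rpow (abs_nonneg _) ha (by linarith)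
    have h2 : |a| - |b| ≤ |a - b| := abs_sub_abs_le_abs_sub a b
    have h3 : 0 ≤ |a| - |b| := sub_nonneg.2 hba
    have h4 : 0 ≤ |a| ^ (q - 1) := Real.rpow_nonneg (abs_nonneg _) _
    have h5 : 0 ≤ q := by linarith
    exact mul_le_mul (mul_le_mul_of_nonneg_left h1 h5) h2 h3 (mul_nonneg h5 (h4.trans h1))
  rcases le_total |b| |a| with h | h
  · exact key a b ha h
  · rw [abs_sub_comm, abs_sub_comm a b]; exact key b a hb h

lemma abs_rpow_sub_le_of_le_one {q a b : ℝ} (hq0 : 0 ≤ q) (hq : q ≤ 1) :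
    abs (|a| ^ q - |b| ^ q) ≤ |a - b| ^ q := by
  have key : ∀ a b : ℝ, |a| ^ q - |b| ^ q ≤ |a - b| ^ q := by
    intro a b
    have h1 : |a| ≤ |a - b| + |b| := by
      have := abs_add_le (a - b) b
      simpa using this
    have h2 : |a| ^ q ≤ (|a - b| + |b|) ^ q := Real.rpow_le_rpow (abs_nonneg _) h1 hq0
    have h3 := Real.rpow_add_le_add_rpow (abs_nonneg (a - b)) (abs_nonneg b) hq0 hq
    linarith
  rw [abs_le]
  constructor
  · have := key b a
    rw [abs_sub_comm] at this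
    linarith
  · exact key a b

lemma sq_rpow_half {p x : ℝ} (hx : 0 ≤ x) : (x ^ (p / 2)) ^ 2 = x ^ p := by
  rw [← Real.rpow_natCast, ← Real.rpow_mul hx]; norm_num

/-- Upper bound for the features. -/
lemma feature_upper {p : ℝ} (hp : 1 ≤ p) : ∃ C : ℝ, 1 ≤ C ∧ ∀ L : ℝ, 1 ≤ L → ∀ a b : ℝ,
    (|a| ^ (p / 2) - |b| ^ (p / 2)) ^ 2
      ≤ C * (L ^ (max 1 (p / 2) - 1) * |a - b| ^ p + |a| ^ p / L) := by
  rcases le_total p 2 with h2 | h2
  · refine ⟨1, le_rfl, fun L hL a b => ?_⟩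
    have hm : max 1 (p / 2) = 1 := max_eq_left (by linarith)
    rw [hm, sub_self, Real.rpow_zero, one_mul, one_mul]
    have h := abs_rpow_sub_le_of_le_one (q := p / 2) (a := a) (b := b) (by linarith) (by linarith)
    have h' : (|a| ^ (p / 2) - |b| ^ (p / 2)) ^ 2 ≤ (|a - b| ^ (p / 2)) ^ 2 := by
      rw [← sq_abs]
      exact pow_le_pow_left₀ (abs_nonneg _) h 2
    rw [sq_rpow_half (abs_nonneg _)] at h'
    have : 0 ≤ |a| ^ p / L := by positivity
    linarith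
  · have hm : max 1 (p / 2) = p / 2 := max_eq_right (by linarith)
    have h2p : (1 : ℝ) ≤ 2 ^ (p - 2) := Real.one_le_rpow (by norm_num) (by linarith)
    refine ⟨(p / 2) ^ 2 * 2 ^ (p - 2), by nlinarith [sq_nonneg (p / 2 - 1)], fun L hL a b => ?_⟩
    rw [hm]
    have hL0 : 0 < L := by linarith
    set s := √L with hs
    have hs1 : 1 ≤ s := Real.one_le_sqrt.2 hL
    have hss : s ^ 2 = L := Real.sq_sqrt hL0.le
    have hb : |b| ≤ |a| + |a - b| := by
      have := abs_sub (a) (a - b)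
      simpa using this
    have gen : ∀ M : ℝ, |a| ≤ M → |a - b| ≤ M →
        (|a| ^ (p / 2) - |b| ^ (p / 2)) ^ 2
          ≤ (p / 2) ^ 2 * 2 ^ (p - 2) * (M ^ (p - 2) * |a - b| ^ 2) := by
      intro M h1 h3
      have hM : 0 ≤ M := (abs_nonneg _).trans h1
      have h := abs_rpow_sub_le_of_one_le (q := p / 2) (a := a) (b := b) (M := 2 * M)
        (by linarith) (by linarith) (by linarith)
      have h' : (|a| ^ (p / 2) - |b| ^ (p / 2)) ^ 2
          ≤ (p / 2 * (2 * M) ^ (p / 2 - 1) * |a - b|) ^ 2 := by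
        rw [← sq_abs]
        exact pow_le_pow_left₀ (abs_nonneg _) h 2
      refine h'.trans (le_of_eq ?_)
      have e1 : p / 2 - 1 = (p - 2) / 2 := by ring
      rw [mul_pow, mul_pow, e1, sq_rpow_half (by positivity),
        Real.mul_rpow (by norm_num) hM]
      ring
    have hC : 0 ≤ (p / 2) ^ 2 * 2 ^ (p - 2) := by positivity
    rcases le_total |a| (s * |a - b|) with hc | hc
    · have h := gen (s * |a - b|) hc (by nlinarith [abs_nonneg (a - b)])
      refine h.trans (mul_le_mul_of_nonneg_left ?_ hC)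
      have e : (s * |a - b|) ^ (p - 2) * |a - b| ^ 2 = L ^ (p / 2 - 1) * |a - b| ^ p := by
        rw [Real.mul_rpow (by linarith) (abs_nonneg _), mul_assoc]
        congr 1
        · rw [hs, Real.sqrt_eq_rpow, ← Real.rpow_mul hL0.le]; congr 1; ring
        · rw [← Real.rpow_natCast, ← Real.rpow_add' (abs_nonneg _) (by push_cast; linarith)]
          congr 1; push_cast; ring
      rw [e]
      have : 0 ≤ |a| ^ p / L := by positivity
      linarith
    · have h := gen |a| le_rfl (by nlinarith [abs_nonneg (a - b)])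
      refine h.trans (mul_le_mul_of_nonneg_left ?_ hC)
      have h1 : |a - b| ^ 2 ≤ |a| ^ 2 / L := by
        rw [le_div_iff₀ hL0, ← hss, ← mul_pow]
        exact pow_le_pow_left₀ (by positivity) (by linarith) 2
      have e : |a| ^ (p - 2) * (|a| ^ 2 / L) = |a| ^ p / L := by
        rw [← mul_div_assoc, ← Real.rpow_natCast,
          ← Real.rpow_add' (abs_nonneg _) (by push_cast; linarith)]
        congr 2; push_cast; ring
      have h4 : |a| ^ (p - 2) * |a - b| ^ 2 ≤ |a| ^ (p - 2) * (|a| ^ 2 / L) :=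
        mul_le_mul_of_nonneg_left h1 (Real.rpow_nonneg (abs_nonneg _) _)
      have : 0 ≤ L ^ (p / 2 - 1) * |a - b| ^ p := by positivity
      linarith

/-- Lower bound for the features, after symmetrisation. -/
lemma feature_lower {p : ℝ} (hp : 0 < p) : ∃ c : ℝ, 0 < c ∧ ∀ u v : ℝ,
    c * (|u| ^ p + |v| ^ p)
      ≤ (|v| ^ (p / 2) - |u - v| ^ (p / 2)) ^ 2 + (|u| ^ (p / 2) - |u - v| ^ (p / 2)) ^ 2 := by
  set q := p / 2 with hq
  have hq0 : 0 < q := by positivity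
  have c1 : 0 < 1 - (2 / 3 : ℝ) ^ q := sub_pos.2 (Real.rpow_lt_one (by norm_num) (by norm_num) hq0)
  have c2 : 0 < (4 / 3 : ℝ) ^ q - 1 := sub_pos.2 (Real.one_lt_rpow (by norm_num) hq0)
  have c3 : 0 < (2 / 3 : ℝ) ^ q - (1 / 3 : ℝ) ^ q :=
    sub_pos.2 (Real.rpow_lt_rpow (by norm_num) (by norm_num) hq0)
  set c0 := min (1 - (2 / 3 : ℝ) ^ q) (min ((4 / 3 : ℝ) ^ q - 1)
    ((2 / 3 : ℝ) ^ q - (1 / 3 : ℝ) ^ q)) with hc0
  have hc0p : 0 < c0 := lt_min c1 (lt_min c2 c3)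
  have d1 : c0 ≤ 1 - (2 / 3 : ℝ) ^ q := min_le_left _ _
  have d2 : c0 ≤ (4 / 3 : ℝ) ^ q - 1 := (min_le_right _ _).trans (min_le_left _ _)
  have d3 : c0 ≤ (2 / 3 : ℝ) ^ q - (1 / 3 : ℝ) ^ q := (min_le_right _ _).trans (min_le_right _ _)
  have key : ∀ u v : ℝ, |v| ≤ |u| → c0 ^ 2 * |u| ^ p
      ≤ (|v| ^ q - |u - v| ^ q) ^ 2 + (|u| ^ q - |u - v| ^ q) ^ 2 := by
    intro u v huv
    have hu := abs_nonneg u
    have hU : 0 ≤ |u| ^ q := Real.rpow_nonneg hu _
    have e : c0 ^ 2 * |u| ^ p = (c0 * |u| ^ q) ^ 2 := by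
      rw [mul_pow, hq, sq_rpow_half hu]
    rw [e]
    have h0 : 0 ≤ c0 * |u| ^ q := by positivity
    rcases le_or_gt |u - v| (2 / 3 * |u|) with h1 | h1
    · have : |u - v| ^ q ≤ (2 / 3) ^ q * |u| ^ q := by
        rw [← Real.mul_rpow (by norm_num) hu]
        exact Real.rpow_le_rpow (abs_nonneg _) h1 hq0.le
      have h2 : c0 * |u| ^ q ≤ |u| ^ q - |u - v| ^ q := by nlinarith
      have := pow_le_pow_left₀ h0 h2 2
      nlinarith [sq_nonneg (|v| ^ q - |u - v| ^ q)]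
    rcases le_or_gt (4 / 3 * |u|) |u - v| with h2 | h2
    · have : (4 / 3) ^ q * |u| ^ q ≤ |u - v| ^ q := by
        rw [← Real.mul_rpow (by norm_num) hu]
        exact Real.rpow_le_rpow (by positivity) h2 hq0.le
      have h2 : c0 * |u| ^ q ≤ |u - v| ^ q - |u| ^ q := by nlinarith
      have := pow_le_pow_left₀ h0 h2 2
      nlinarith [sq_nonneg (|v| ^ q - |u - v| ^ q)]
    · have hv : |v| ≤ 1 / 3 * |u| := by
        rcases abs_cases u with ⟨a1, a2⟩ | ⟨a1, a2⟩ <;>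
        rcases abs_cases v with ⟨b1, b2⟩ | ⟨b1, b2⟩ <;>
        rcases abs_cases (u - v) with ⟨c1, c2⟩ | ⟨c1, c2⟩ <;> linarith
      have e1 : (2 / 3) ^ q * |u| ^ q ≤ |u - v| ^ q := by
        rw [← Real.mul_rpow (by norm_num) hu]
        exact Real.rpow_le_rpow (by positivity) h1.le hq0.le
      have e2 : |v| ^ q ≤ (1 / 3) ^ q * |u| ^ q := by
        rw [← Real.mul_rpow (by norm_num) hu]
        exact Real.rpow_le_rpow (abs_nonneg _) hv hq0.le
      have h3 : c0 * |u| ^ q ≤ |u - v| ^ q - |v| ^ q := by nlinarith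
      have := pow_le_pow_left₀ h0 h3 2
      nlinarith [sq_nonneg (|u| ^ q - |u - v| ^ q)]
  refine ⟨c0 ^ 2 / 2, by positivity, fun u v => ?_⟩
  have hc2 : 0 ≤ c0 ^ 2 := sq_nonneg _
  rcases le_total |v| |u| with h | h
  · have h1 := key u v h
    have h2 : |v| ^ p ≤ |u| ^ p := Real.rpow_le_rpow (abs_nonneg _) h hp.le
    nlinarith
  · have h1 := key v u h
    have h2 : |u| ^ p ≤ |v| ^ p := Real.rpow_le_rpow (abs_nonneg _) h hp.le
    rw [abs_sub_comm v u] at h1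
    nlinarith

/-- `(a + b) ^ p ≤ 2 ^ p (a ^ p + b ^ p)` for nonnegative reals. -/
lemma add_rpow_le_two_rpow {p a b : ℝ} (hp : 0 ≤ p) (ha : 0 ≤ a) (hb : 0 ≤ b) :
    (a + b) ^ p ≤ 2 ^ p * (a ^ p + b ^ p) := by
  have key : ∀ a b : ℝ, 0 ≤ a → a ≤ b → (a + b) ^ p ≤ 2 ^ p * (a ^ p + b ^ p) := by
    intro a b ha hab
    have h1 : (a + b) ^ p ≤ (2 * b) ^ p := Real.rpow_le_rpow (by linarith) (by linarith) hp
    rw [Real.mul_rpow (by norm_num) (by linarith)] at h1
    have : 0 ≤ (2 : ℝ) ^ p * a ^ p := by positivity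
    linarith
  rcases le_total a b with h | h
  · exact key a b ha h
  · rw [add_comm, add_comm (a ^ p)]; exact key b a hb h

end ineq

end Vale.Agent.P249
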