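import Mathlib.MeasureTheory.Function.LpSpace.Basic
import Mathlib.Order.Lattice.Nat

open MeasureTheory

namespace Vale.Agent.P249

universe u

/-- Every `n`-point subset `X` of every real space `L_p(μ)` admits a map into
`ℓ_p^d = (ℝ^d, (∑ |y_k|^p)^(1/p))` with distortion at most `D`. -/
def Embeds (p : ℝ) (n d : ℕ) (D : ℝ) : Prop :=
  ∀ (Ω : Type u) [MeasurableSpace Ω] (μ : Measure Ω) (X : Finset (Lp ℝ (ENNReal.ofReal p) μ)),
    X.card = n →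
      ∃ (f : Lp ℝ (ENNReal.ofReal p) μ → Fin d → ℝ) (s : ℝ), 0 < s ∧ ∀ x ∈ X, ∀ y ∈ X,
        s * ‖x - y‖ ≤ (∑ k, |f x k - f y k| ^ p) ^ (1 / p) ∧
        (∑ k, |f x k - f y k| ^ p) ^ (1 / p) ≤ D * s * ‖x - y‖

/-- The least dimension `d_p(n, D)`. -/
noncomputable def dp (p : ℝ) (n : ℕ) (D : ℝ) : ℕ := sInf {d | Embeds.{u} p n d D}

end Vale.Agent.P249
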