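import Vale.Agent.P249.Basic
import Mathlib.MeasureTheory.Function.LpSpace.Basic
import Mathlib.MeasureTheory.Integral.Bochner.Basic
import Mathlib.Analysis.LocallyConvex.Separation
import Mathlib.Analysis.Convex.Combination
import Mathlib.Analysis.Convex.Topology

/-! Finite subsets of `L_p(μ)` are almost isometric to finite subsets of a finite `ℓ_p`. -/

open Finset MeasureTheory

namespace Vale.Agent.P249

lemma norm_sub_rpow_eq_integral {p : ℝ} (hp : 0 < p) {Ω : Type*} [MeasurableSpace Ω]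
    {μ : Measure Ω} (x y : Lp ℝ (ENNReal.ofReal p) μ) :
    Integrable (fun ω => |x ω - y ω| ^ p) μ ∧ ‖x - y‖ ^ p = ∫ ω, |x ω - y ω| ^ p ∂μ := by
  have h0 : ENNReal.ofReal p ≠ 0 := by simpa using hp
  have h1 : ENNReal.ofReal p ≠ ⊤ := ENNReal.ofReal_ne_top
  have hae : (fun ω => ‖(x - y) ω‖ ^ (ENNReal.ofReal p).toReal)
      =ᵐ[μ] fun ω => |x ω - y ω| ^ p := by
    filter_upwards [Lp.coeFn_sub x y] with ω hω
    rw [hω, ENNReal.toReal_ofReal hp.le, Real.norm_eq_abs, Pi.sub_apply]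
  refine ⟨((Lp.memLp (x - y)).integrable_norm_rpow h0 h1).congr hae, ?_⟩
  have hI : 0 ≤ ∫ ω, |x ω - y ω| ^ p ∂μ :=
    integral_nonneg fun ω => Real.rpow_nonneg (abs_nonneg _) _
  rw [Lp.norm_def, (Lp.memLp (x - y)).eLpNorm_eq_integral_rpow_norm h0 h1, integral_congr_ae hae,
    ENNReal.toReal_ofReal (Real.rpow_nonneg hI _), ENNReal.toReal_ofReal hp.le,
    ← Real.rpow_mul hI, inv_mul_cancel₀ hp.ne', Real.rpow_one]

lemma mem_closure_cone {p : ℝ} (hp : 0 < p) {Ω : Type*} [MeasurableSpace Ω]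
    {μ : Measure Ω} {X : Type*} [Fintype X] (x : X → Lp ℝ (ENNReal.ofReal p) μ) :
    (fun k : X × X => ‖x k.1 - x k.2‖ ^ p) ∈
      closure (convexHull ℝ (Set.range fun (v : X → ℝ) (k : X × X) => |v k.1 - v k.2| ^ p)) := by
  classical
  by_contra hc
  obtain ⟨L, u, hL, hu⟩ := geometric_hahn_banach_closed_point (convex_convexHull ℝ _).closure
    isClosed_closure hc
  have hL' : ∀ v : X → ℝ, L (fun k : X × X => |v k.1 - v k.2| ^ p) < u := fun v =>
    hL _ (subset_closure (subset_convexHull ℝ _ ⟨v, rfl⟩))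
  have hu0 : 0 < u := by
    have := hL' 0
    simp only [Pi.zero_apply, sub_self, abs_zero, Real.zero_rpow hp.ne'] at this
    have e : (fun _ : X × X => (0 : ℝ)) = 0 := rfl
    rwa [e, map_zero] at this
  have hL0 : ∀ v : X → ℝ, L (fun k : X × X => |v k.1 - v k.2| ^ p) ≤ 0 := by
    intro v
    by_contra hpos
    push Not at hpos
    set a := L (fun k : X × X => |v k.1 - v k.2| ^ p) with ha
    have h1 := hL' (fun i => (u / a) ^ (1 / p) * v i)
    have e : (fun k : X × X => |(u / a) ^ (1 / p) * v k.1 - (u / a) ^ (1 / p) * v k.2| ^ p)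
        = (u / a) • fun k : X × X => |v k.1 - v k.2| ^ p := by
      funext k
      have hua : 0 ≤ u / a := by positivity
      rw [← mul_sub, abs_mul, abs_of_nonneg (Real.rpow_nonneg hua _),
        Real.mul_rpow (Real.rpow_nonneg hua _) (abs_nonneg _), ← Real.rpow_mul hua,
        one_div_mul_cancel hp.ne', Real.rpow_one]
      rfl
    rw [e, map_smul, ← ha, smul_eq_mul, div_mul_cancel₀ _ hpos.ne'] at h1
    exact lt_irrefl _ h1
  let l : X × X → ℝ := fun k => L fun j => if k = j then 1 else 0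
  have hLs : ∀ M : X × X → ℝ, L M = ∑ k, M k * l k := fun M =>
    LinearMap.pi_apply_eq_sum_univ (L : (X × X → ℝ) →ₗ[ℝ] ℝ) M
  have h2 : L (fun k : X × X => ‖x k.1 - x k.2‖ ^ p)
      = ∫ ω, ∑ k : X × X, |x k.1 ω - x k.2 ω| ^ p * l k ∂μ := by
    rw [hLs, integral_finsetSum _ fun k _ =>
      (norm_sub_rpow_eq_integral hp (x k.1) (x k.2)).1.mul_const _]
    refine sum_congr rfl fun k _ => ?_
    rw [integral_mul_const, (norm_sub_rpow_eq_integral hp (x k.1) (x k.2)).2]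
  have h3 : ∫ ω, ∑ k : X × X, |x k.1 ω - x k.2 ω| ^ p * l k ∂μ ≤ 0 := by
    refine integral_nonpos fun ω => ?_
    have := hL0 fun i => x i ω
    rwa [hLs] at this
  linarith

theorem lp_approx {p : ℝ} (hp : 1 ≤ p) {Ω : Type*} [MeasurableSpace Ω]
    {μ : Measure Ω} {X : Type*} [Fintype X] (x : X → Lp ℝ (ENNReal.ofReal p) μ)
    (hx : Function.Injective x) {ε : ℝ} (hε0 : 0 < ε) (hε : ε ≤ 1) :
    ∃ (T : Type) (_ : Fintype T) (f : X → T → ℝ), ∀ a b,
      (1 - ε) * ‖x a - x b‖ ≤ lpn p (fun t => f a t - f b t) ∧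
      lpn p (fun t => f a t - f b t) ≤ (1 + ε) * ‖x a - x b‖ := by
  classical
  have hp0 : 0 < p := by linarith
  have : Fact (1 ≤ ENNReal.ofReal p) := ⟨by simpa using hp⟩
  let M0 : X × X → ℝ := fun k => ‖x k.1 - x k.2‖ ^ p
  obtain ⟨δ, hδ0, hδ⟩ : ∃ δ : ℝ, 0 < δ ∧ ∀ a b, a ≠ b → δ ≤ ε * M0 (a, b) := by
    have hpos : ∀ a b, a ≠ b → 0 < ε * M0 (a, b) := fun a b h =>
      mul_pos hε0 (Real.rpow_pos_of_pos (norm_pos_iff.2 (sub_ne_zero.2 (hx.ne h))) _)
    rcases (univ.filter fun k : X × X => k.1 ≠ k.2).eq_empty_or_nonempty with h | h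
    · refine ⟨1, one_pos, fun a b hab => ?_⟩
      have : (a, b) ∈ univ.filter fun k : X × X => k.1 ≠ k.2 := mem_filter.2 ⟨mem_univ _, hab⟩
      rw [h] at this
      exact absurd this (notMem_empty _)
    · obtain ⟨k, hk, hmin⟩ := exists_min_image _ (fun k => ε * M0 k) h
      exact ⟨ε * M0 k, hpos k.1 k.2 (mem_filter.1 hk).2,
        fun a b hab => hmin (a, b) (mem_filter.2 ⟨mem_univ _, hab⟩)⟩
  obtain ⟨M, hM, hdist⟩ := Metric.mem_closure_iff.1 (mem_closure_cone hp0 x) δ hδ0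
  obtain ⟨ι, _, w, z, hw0, -, hz, hsum⟩ := mem_convexHull_iff_exists_fintype.1 hM
  choose v hv using hz
  refine ⟨ι, inferInstance, fun a t => w t ^ (1 / p) * v t a, fun a b => ?_⟩
  by_cases hab : a = b
  · subst hab
    simp only [sub_self, norm_zero, mul_zero, lpn_zero hp0, le_refl, and_self]
  have h1 : ∑ t, |w t ^ (1 / p) * v t a - w t ^ (1 / p) * v t b| ^ p = M (a, b) := by
    rw [← hsum, Finset.sum_apply]
    refine sum_congr rfl fun t _ => ?_
    rw [← hv t, ← mul_sub, abs_mul, abs_of_nonneg (Real.rpow_nonneg (hw0 t) _),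
      Real.mul_rpow (Real.rpow_nonneg (hw0 t) _) (abs_nonneg _), ← Real.rpow_mul (hw0 t),
      one_div_mul_cancel hp0.ne', Real.rpow_one]
    rfl
  have h2 : |M0 (a, b) - M (a, b)| ≤ ε * M0 (a, b) :=
    ((dist_le_pi_dist M0 M (a, b)).trans hdist.le).trans (hδ a b hab)
  rw [abs_le] at h2
  have h6 := norm_nonneg (x a - x b)
  have h7 : M0 (a, b) = ‖x a - x b‖ ^ p := rfl
  have h8 : 0 ≤ ‖x a - x b‖ ^ p := Real.rpow_nonneg h6 _
  constructor
  · refine le_lpn_of_le_sum hp0 _ (mul_nonneg (by linarith) h6) ?_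
    rw [h1, Real.mul_rpow (by linarith) h6]
    have : (1 - ε) ^ p ≤ 1 - ε := by
      rcases eq_or_lt_of_le hε with h | h
      · rw [h, sub_self, Real.zero_rpow hp0.ne']
      · have := Real.rpow_le_rpow_of_exponent_ge (x := 1 - ε) (by linarith) (by linarith) hp
        rwa [Real.rpow_one] at this
    nlinarith [h2.1, h2.2]
  · refine lpn_le_of_sum_le hp0 _ (mul_nonneg (by linarith) h6) ?_
    rw [h1, Real.mul_rpow (by linarith) h6]
    have := Real.rpow_le_rpow_of_exponent_le (x := 1 + ε) (by linarith) hp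
    rw [Real.rpow_one] at this
    nlinarith [h2.1, h2.2]

end Vale.Agent.P249
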