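import Vale.Agent.P249.Defs
import Vale.Agent.P249.Reduce
import Mathlib.MeasureTheory.Integral.Bochner.SumMeasure
import Mathlib.Analysis.Convex.SpecificFunctions.Pow

/-! Isometric embeddings need quadratic dimension when `p ≠ 2`. -/

open Finset MeasureTheory

namespace Vale.Agent.P249

lemma midpoint_lt {p : ℝ} (hp : 1 < p) {a b : ℝ} (hab : a ≠ -b) :
    |a - b| ^ p < 2 ^ p * ((|a| ^ p + |b| ^ p) / 2) := by
  have hp0 : 0 < p := by linarith
  by_cases h : |a| = |b|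
  · have hb : a = b := by
      rcases abs_eq_abs.1 h with h | h
      · exact h
      · exact absurd h hab
    have ha : a ≠ 0 := fun h0 => hab (by rw [← hb, h0, neg_zero])
    rw [hb, sub_self, abs_zero, Real.zero_rpow hp0.ne']
    have : 0 < |b| ^ p := Real.rpow_pos_of_pos (abs_pos.2 (hb ▸ ha)) _
    positivity
  · have h1 := (strictConvexOn_rpow hp).2 (abs_nonneg a) (abs_nonneg b) h
      (by norm_num : (0 : ℝ) < 1 / 2) (by norm_num : (0 : ℝ) < 1 / 2) (by norm_num)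
    simp only [smul_eq_mul] at h1
    have h2 : |a - b| ≤ 2 * (1 / 2 * |a| + 1 / 2 * |b|) := by linarith [abs_sub a b]
    have h3 := Real.rpow_le_rpow (abs_nonneg _) h2 hp0.le
    rw [Real.mul_rpow (by norm_num) (by positivity)] at h3
    have h4 : (0 : ℝ) < 2 ^ p := by positivity
    have h5 := mul_lt_mul_of_pos_left h1 h4
    linarith

lemma midpoint_le {p : ℝ} (hp : 1 < p) (a b : ℝ) :
    |a - b| ^ p ≤ 2 ^ p * ((|a| ^ p + |b| ^ p) / 2) := by
  by_cases h : a = -b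
  · rw [h, abs_neg, show -b - b = -(2 * b) by ring, abs_neg, abs_mul, abs_two,
      Real.mul_rpow (by norm_num) (abs_nonneg _)]
    linarith
  · exact (midpoint_lt hp h).le

lemma abs_rpow_eq_sq_rpow (p x : ℝ) : |x| ^ p = (x ^ 2) ^ (p / 2) := by
  rw [← sq_abs, ← Real.rpow_natCast, ← Real.rpow_mul (abs_nonneg _)]
  congr 1; push_cast; ring

lemma clarkson_sign {p : ℝ} (hp : 0 < p) (hp2 : p ≠ 2) : ∃ σ : ℝ, ∀ a b : ℝ, a ≠ 0 → b ≠ 0 →
    0 < σ * (|a - b| ^ p + |a + b| ^ p - 2 * |a| ^ p - 2 * |b| ^ p) := by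
  have split : ∀ r A B : ℝ, 0 < A → 0 < B →
      (A + B) ^ r = A * (A + B) ^ (r - 1) + B * (A + B) ^ (r - 1) := by
    intro r A B hA hB
    rw [← add_mul, Real.rpow_sub_one (by positivity)]
    field_simp
  have self : ∀ r A : ℝ, 0 < A → A ^ r = A * A ^ (r - 1) := by
    intro r A hA
    rw [Real.rpow_sub_one hA.ne']
    field_simp
  rcases lt_or_gt_of_ne hp2 with h | h
  · refine ⟨-1, fun a b ha hb => ?_⟩
    simp only [abs_rpow_eq_sq_rpow]
    have hA : 0 < a ^ 2 := by positivity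
    have hB : 0 < b ^ 2 := by positivity
    have h1 := (Real.concaveOn_rpow (p := p / 2) (by linarith) (by linarith)).2
      (sq_nonneg (a - b)) (sq_nonneg (a + b)) (by norm_num : (0 : ℝ) ≤ 1 / 2)
      (by norm_num : (0 : ℝ) ≤ 1 / 2) (by norm_num)
    simp only [smul_eq_mul] at h1
    rw [show 1 / 2 * (a - b) ^ 2 + 1 / 2 * (a + b) ^ 2 = a ^ 2 + b ^ 2 by ring,
      split _ _ _ hA hB] at h1
    rw [self _ _ hA, self _ _ hB]
    have h2 : (a ^ 2 + b ^ 2) ^ (p / 2 - 1) < (a ^ 2) ^ (p / 2 - 1) :=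
      Real.rpow_lt_rpow_of_neg hA (by linarith) (by linarith)
    have h3 : (a ^ 2 + b ^ 2) ^ (p / 2 - 1) < (b ^ 2) ^ (p / 2 - 1) :=
      Real.rpow_lt_rpow_of_neg hB (by linarith) (by linarith)
    have h4 := mul_lt_mul_of_pos_left h2 hA
    have h5 := mul_lt_mul_of_pos_left h3 hB
    linarith
  · refine ⟨1, fun a b ha hb => ?_⟩
    simp only [abs_rpow_eq_sq_rpow]
    have hA : 0 < a ^ 2 := by positivity
    have hB : 0 < b ^ 2 := by positivity
    have h1 := (convexOn_rpow (p := p / 2) (by linarith)).2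
      (sq_nonneg (a - b)) (sq_nonneg (a + b)) (by norm_num : (0 : ℝ) ≤ 1 / 2)
      (by norm_num : (0 : ℝ) ≤ 1 / 2) (by norm_num)
    simp only [smul_eq_mul] at h1
    rw [show 1 / 2 * (a - b) ^ 2 + 1 / 2 * (a + b) ^ 2 = a ^ 2 + b ^ 2 by ring,
      split _ _ _ hA hB] at h1
    rw [self _ _ hA, self _ _ hB]
    have h2 : (a ^ 2) ^ (p / 2 - 1) < (a ^ 2 + b ^ 2) ^ (p / 2 - 1) :=
      Real.rpow_lt_rpow hA.le (by linarith) (by linarith)
    have h3 : (b ^ 2) ^ (p / 2 - 1) < (a ^ 2 + b ^ 2) ^ (p / 2 - 1) :=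
      Real.rpow_lt_rpow hB.le (by linarith) (by linarith)
    have h4 := mul_lt_mul_of_pos_left h2 hA
    have h5 := mul_lt_mul_of_pos_left h3 hB
    linarith

lemma clarkson_zero {p : ℝ} (hp : 0 < p) {a b : ℝ} (h : a = 0 ∨ b = 0) :
    |a - b| ^ p + |a + b| ^ p - 2 * |a| ^ p - 2 * |b| ^ p = 0 := by
  rcases h with rfl | rfl <;> simp [Real.zero_rpow hp.ne'] <;> ring

/-- Overlap patterns of supports are preserved by scaled isometries defined on `0` and `±A i`. -/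
lemma overlap_iff {p : ℝ} (hp : 1 < p) (hp2 : p ≠ 2) {Ω K I : Type*} [Fintype Ω] [Fintype K]
    (A : I → Ω → ℝ) (c : ℝ) (hc : 0 < c) (g g' : I → K → ℝ)
    (h1 : ∀ i, ∑ k, |g i k| ^ p = c * ∑ ω, |A i ω| ^ p)
    (h2 : ∀ i, ∑ k, |g' i k| ^ p = c * ∑ ω, |A i ω| ^ p)
    (h3 : ∀ i j, ∑ k, |g i k - g j k| ^ p = c * ∑ ω, |A i ω - A j ω| ^ p)
    (h4 : ∀ i j, ∑ k, |g i k - g' j k| ^ p = c * ∑ ω, |A i ω + A j ω| ^ p) (i j : I) :
    (∃ k, g i k ≠ 0 ∧ g j k ≠ 0) ↔ ∃ ω, A i ω ≠ 0 ∧ A j ω ≠ 0 := by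
  have hp0 : 0 < p := by linarith
  have hneg : ∀ i k, g' i k = - g i k := by
    intro i
    have e1 : ∑ k, (2 ^ p * ((|g i k| ^ p + |g' i k| ^ p) / 2) - |g i k - g' i k| ^ p) = 0 := by
      rw [sum_sub_distrib, ← mul_sum, ← sum_div, sum_add_distrib, h1, h2, h4]
      have : ∀ ω, |A i ω + A i ω| ^ p = 2 ^ p * |A i ω| ^ p := fun ω => by
        rw [← two_mul, abs_mul, abs_two, Real.mul_rpow (by norm_num) (abs_nonneg _)]
      simp_rw [this]
      rw [← mul_sum]; ring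
    rw [sum_eq_zero_iff_of_nonneg fun k _ => sub_nonneg.2 (midpoint_le hp _ _)] at e1
    intro k
    by_contra hne
    have := midpoint_lt hp (a := g i k) (b := g' i k) (fun h => hne (by rw [h, neg_neg]))
    linarith [e1 k (mem_univ k)]
  obtain ⟨σ, hσ⟩ := clarkson_sign hp0 hp2
  have hσ0 : ∀ a b : ℝ, 0 ≤ σ * (|a - b| ^ p + |a + b| ^ p - 2 * |a| ^ p - 2 * |b| ^ p) := by
    intro a b
    by_cases h : a = 0 ∨ b = 0
    · rw [clarkson_zero hp0 h, mul_zero]
    · push Not at h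
      exact (hσ a b h.1 h.2).le
  have key : ∀ {L : Type _} [Fintype L] (a b : L → ℝ),
      (0 < ∑ k, σ * (|a k - b k| ^ p + |a k + b k| ^ p - 2 * |a k| ^ p - 2 * |b k| ^ p))
        ↔ ∃ k, a k ≠ 0 ∧ b k ≠ 0 := by
    intro L _ a b
    rw [sum_pos_iff_of_nonneg fun k _ => hσ0 _ _]
    constructor
    · rintro ⟨k, -, hk⟩
      refine ⟨k, ?_⟩
      by_contra hcon
      rw [clarkson_zero hp0 (by tauto), mul_zero] at hk
      exact lt_irrefl _ hk
    · rintro ⟨k, hk⟩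
      exact ⟨k, mem_univ k, hσ _ _ hk.1 hk.2⟩
  have key' : ∀ (a b : Ω → ℝ),
      (0 < ∑ k, σ * (|a k - b k| ^ p + |a k + b k| ^ p - 2 * |a k| ^ p - 2 * |b k| ^ p))
        ↔ ∃ k, a k ≠ 0 ∧ b k ≠ 0 := by
    intro a b
    rw [sum_pos_iff_of_nonneg fun k _ => hσ0 _ _]
    constructor
    · rintro ⟨k, -, hk⟩
      refine ⟨k, ?_⟩
      by_contra hcon
      rw [clarkson_zero hp0 (by tauto), mul_zero] at hk
      exact lt_irrefl _ hk
    · rintro ⟨k, hk⟩
      exact ⟨k, mem_univ k, hσ _ _ hk.1 hk.2⟩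
  rw [← key (g i) (g j), ← key' (A i) (A j)]
  have h5 := h4 i j
  simp_rw [hneg, sub_neg_eq_add] at h5
  have e : ∑ k, σ * (|g i k - g j k| ^ p + |g i k + g j k| ^ p - 2 * |g i k| ^ p - 2 * |g j k| ^ p)
      = c * ∑ k, σ * (|A i k - A j k| ^ p + |A i k + A j k| ^ p - 2 * |A i k| ^ p
        - 2 * |A j k| ^ p) := by
    simp only [← mul_sum, sum_sub_distrib, sum_add_distrib]
    rw [h1, h1, h3, h5]; ring
  rw [e]
  exact mul_pos_iff_of_pos_left hc

universe u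

theorem exact_lower {p : ℝ} (hp : 1 < p) (hp2 : p ≠ 2) (n d : ℕ) (h : Embeds.{u} p n d 1) :
    ((n - 1) / 4) ^ 2 ≤ d := by
  classical
  have hp0 : 0 < p := by linarith
  have : Fact (1 ≤ ENNReal.ofReal p) := ⟨by simpa using hp.le⟩
  set m := (n - 1) / 4 with hm
  rcases Nat.eq_zero_or_pos m with h0 | hm0
  · rw [h0]; simp
  have hn : 1 + (2 * m + 2 * m) ≤ n := by omega
  let Ω : Type u := ULift.{u} (Fin m × Fin m)
  let _ : MeasurableSpace Ω := ⊤
  have : DiscreteMeasurableSpace Ω := ⟨fun _ => trivial⟩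
  let μ : Measure Ω := Measure.count
  let emb : (Ω → ℝ) → Lp ℝ (ENNReal.ofReal p) μ := fun a => (MemLp.of_discrete (f := a)).toLp a
  have hemb : ∀ a b, ‖emb a - emb b‖ ^ p = ∑ ω, |a ω - b ω| ^ p := by
    intro a b
    rw [(norm_sub_rpow_eq_integral hp0 _ _).2, ← integral_count]
    refine integral_congr_ae ?_
    filter_upwards [MemLp.coeFn_toLp (MemLp.of_discrete (f := a) (p := ENNReal.ofReal p) (μ := μ)),
      MemLp.coeFn_toLp (MemLp.of_discrete (f := b) (p := ENNReal.ofReal p) (μ := μ))] with ω h1 h2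
    simp only [emb]
    rw [h1, h2]
  have hinf : Infinite (Lp ℝ (ENNReal.ofReal p) μ) := by
    refine Infinite.of_injective (fun r : ℝ => emb fun _ => r) fun r r' hr => ?_
    have h1 := hemb (fun _ => r) (fun _ => r')
    simp only at hr
    rw [hr, sub_self, norm_zero, Real.zero_rpow hp0.ne', eq_comm,
      sum_eq_zero_iff_of_nonneg fun _ _ => Real.rpow_nonneg (abs_nonneg _) _] at h1
    have h2 := h1 ⟨(⟨0, hm0⟩, ⟨0, hm0⟩)⟩ (mem_univ _)
    rw [Real.rpow_eq_zero (abs_nonneg _) hp0.ne', abs_eq_zero] at h2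
    linarith
  let A : Fin m ⊕ Fin m → Ω → ℝ := fun i ω =>
    Sum.elim (fun r => if ω.down.1 = r then 1 else 0) (fun s => if ω.down.2 = s then 1 else 0) i
  let X0 : Finset (Lp ℝ (ENNReal.ofReal p) μ) :=
    insert (emb 0) ((univ.image fun i => emb (A i)) ∪ (univ.image fun i => emb (-A i)))
  have hX0 : X0.card ≤ n := by
    refine (card_insert_le _ _).trans ?_
    have a1 := card_union_le (univ.image fun i => emb (A i)) (univ.image fun i => emb (-A i))
    have a2 : (univ.image fun i => emb (A i)).card ≤ 2 * m :=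
      card_image_le.trans (by simp [two_mul])
    have a3 : (univ.image fun i => emb (-A i)).card ≤ 2 * m :=
      card_image_le.trans (by simp [two_mul])
    omega
  obtain ⟨X, hX, hXn⟩ := Infinite.exists_superset_card_eq X0 n hX0
  obtain ⟨f, s, hs, hf⟩ := h Ω μ X hXn
  have hiso : ∀ a b, emb a ∈ X0 → emb b ∈ X0 →
      ∑ k, |f (emb a) k - f (emb b) k| ^ p = s ^ p * ∑ ω, |a ω - b ω| ^ p := by
    intro a b ha hb
    obtain ⟨h1, h2⟩ := hf _ (hX ha) _ (hX hb)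
    have h3 : lpn p (fun k => f (emb a) k - f (emb b) k) = s * ‖emb a - emb b‖ :=
      le_antisymm (by simpa [lpn] using h2) h1
    rw [← lpn_rpow hp0, h3, Real.mul_rpow hs.le (norm_nonneg _), hemb]
  have m0 : emb 0 ∈ X0 := mem_insert_self _ _
  have m1 : ∀ i, emb (A i) ∈ X0 := fun i =>
    mem_insert_of_mem (mem_union_left _ (mem_image_of_mem _ (mem_univ i)))
  have m2 : ∀ i, emb (-A i) ∈ X0 := fun i =>
    mem_insert_of_mem (mem_union_right _ (mem_image_of_mem _ (mem_univ i)))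
  have hov := overlap_iff hp hp2 A (s ^ p) (Real.rpow_pos_of_pos hs _)
    (fun i k => f (emb (A i)) k - f (emb 0) k) (fun i k => f (emb (-A i)) k - f (emb 0) k)
    (fun i => by simpa using hiso _ _ (m1 i) m0) (fun i => by simpa using hiso _ _ (m2 i) m0)
    (fun i j => by simpa using hiso _ _ (m1 i) (m1 j))
    (fun i j => by simpa using hiso _ _ (m1 i) (m2 j))
  have hex : ∀ w : Fin m × Fin m, ∃ k, f (emb (A (Sum.inl w.1))) k - f (emb 0) k ≠ 0 ∧
      f (emb (A (Sum.inr w.2))) k - f (emb 0) k ≠ 0 := fun w =>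
    (hov (Sum.inl w.1) (Sum.inr w.2)).2 ⟨⟨w⟩, by simp [A], by simp [A]⟩
  choose κ hκ1 hκ2 using hex
  have hinj : Function.Injective κ := by
    intro w w' hw
    obtain ⟨ω, a1, a2⟩ := (hov (Sum.inl w.1) (Sum.inl w'.1)).1 ⟨κ w, hκ1 w, hw ▸ hκ1 w'⟩
    obtain ⟨ω', b1, b2⟩ := (hov (Sum.inr w.2) (Sum.inr w'.2)).1 ⟨κ w, hκ2 w, hw ▸ hκ2 w'⟩
    simp only [A, Sum.elim_inl, Sum.elim_inr, ne_eq, ite_eq_right_iff, one_ne_zero, imp_false,
      not_not] at a1 a2 b1 b2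
    exact Prod.ext (a1.symm.trans a2) (b1.symm.trans b2)
  have := Fintype.card_le_of_injective κ hinj
  simpa [sq] using this

end Vale.Agent.P249
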