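import Vale.Agent.P249.Sample

/-! Bernoulli hashing of sparse, uniformly Lipschitz coordinates. -/

open Finset

namespace Vale.Agent.P249

section
variable {Ω : Type*} [Fintype Ω] [DecidableEq Ω]

lemma moment_upper {p C ε : ℝ} (hp : 1 ≤ p) (hC0 : 0 ≤ C)
    (hC : ∀ k : ℕ, ((k + 1 : ℕ) : ℝ) ^ (p - 1) ≤ 1 + C * (2 ^ k - 1))
    {q : Ω → ℝ} (h0 : ∀ ω, 0 ≤ q ω) (h1 : ∀ ω, q ω ≤ 1) (U : Finset Ω) (a : Ω → ℝ)
    (hε : 2 * ε ≤ 1) (hU : ∑ ω ∈ U, q ω ≤ 2 * ε) :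
    ∑ B, bw q B * |∑ ω ∈ U, (if B ω then 1 else 0) * a ω| ^ p
      ≤ (1 + 4 * C * ε) * ∑ ω ∈ U, q ω * |a ω| ^ p := by
  refine (sum_le_sum fun B _ => mul_le_mul_of_nonneg_left (sel_upper hp hC U a B)
    (bw_nonneg h0 h1 B)).trans ?_
  simp_rw [mul_sum]
  rw [sum_comm]
  refine sum_le_sum fun ω _ => ?_
  have e1 := bw_ind_tw q 2 U ω
  have e2 : ∑ B, bw q B * (if B ω then 1 else 0) = q ω := by
    have := bw_ind_tw q 1 U ω
    simpa [tw] using this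
  have e3 : ∑ B, bw q B * (|a ω| ^ p * ((1 - C) * (if B ω then 1 else 0)
        + C * ((if B ω then 1 else 0) * tw 2 (U.erase ω) B)))
      = |a ω| ^ p * ((1 - C) * ∑ B, bw q B * (if B ω then 1 else 0)
        + C * ∑ B, bw q B * ((if B ω then 1 else 0) * tw 2 (U.erase ω) B)) := by
    rw [mul_sum, mul_sum, ← sum_add_distrib, mul_sum]
    exact sum_congr rfl fun B _ => by ring
  rw [e3, e1, e2]
  have hs0 : 0 ≤ ∑ ω ∈ U, q ω := sum_nonneg fun ω _ => h0 ω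
  have a1 := prod_one_add_le_exp q h0 (U.erase ω)
  have a2 : ∑ ω' ∈ U.erase ω, q ω' ≤ 2 * ε :=
    (sum_le_sum_of_subset_of_nonneg (erase_subset _ _) fun ω _ _ => h0 ω).trans hU
  have a3 : Real.exp (2 * ε) ≤ 1 + 4 * ε := by
    have h2 : 0 ≤ 2 * ε := hs0.trans hU
    have := (abs_le.1 (Real.abs_exp_sub_one_le (x := 2 * ε) (by rwa [abs_of_nonneg h2]))).2
    rw [abs_of_nonneg h2] at this
    linarith
  have a4 : ∏ ω ∈ U.erase ω, (1 + (2 - 1) * q ω) ≤ 1 + 4 * ε :=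
    a1.trans ((Real.exp_le_exp.2 a2).trans a3)
  have a5 := mul_le_mul_of_nonneg_left a4 (mul_nonneg hC0 (h0 ω))
  have a6 : (1 - C) * q ω + C * (q ω * ∏ ω ∈ U.erase ω, (1 + (2 - 1) * q ω))
      ≤ (1 + 4 * C * ε) * q ω := by nlinarith
  have a7 := mul_le_mul_of_nonneg_left a6 (Real.rpow_nonneg (abs_nonneg (a ω)) p)
  linarith

lemma moment_lower {p ε : ℝ} {q : Ω → ℝ} (h0 : ∀ ω, 0 ≤ q ω) (h1 : ∀ ω, q ω ≤ 1)
    (U : Finset Ω) (a : Ω → ℝ) (hU : ∑ ω ∈ U, q ω ≤ 2 * ε) :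
    (1 - 2 * ε) * ∑ ω ∈ U, q ω * |a ω| ^ p
      ≤ ∑ B, bw q B * ∑ ω ∈ U, |a ω| ^ p * ((if B ω then 1 else 0) * tw 0 (U.erase ω) B) := by
  simp_rw [mul_sum]
  rw [sum_comm]
  refine sum_le_sum fun ω _ => ?_
  have e1 := bw_ind_tw q 0 U ω
  have e3 : ∑ B, bw q B * (|a ω| ^ p * ((if B ω then 1 else 0) * tw 0 (U.erase ω) B))
      = |a ω| ^ p * ∑ B, bw q B * ((if B ω then 1 else 0) * tw 0 (U.erase ω) B) := by
    rw [mul_sum]
    exact sum_congr rfl fun B _ => by ring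
  rw [e3, e1]
  have a1 := one_sub_sum_le_prod q h0 h1 (U.erase ω)
  have a2 : ∑ ω' ∈ U.erase ω, q ω' ≤ 2 * ε :=
    (sum_le_sum_of_subset_of_nonneg (erase_subset _ _) fun ω _ _ => h0 ω).trans hU
  have a3 : 1 - 2 * ε ≤ ∏ ω ∈ U.erase ω, (1 + (0 - 1) * q ω) := by linarith
  have a4 := mul_le_mul_of_nonneg_left a3
    (mul_nonneg (Real.rpow_nonneg (abs_nonneg (a ω)) p) (h0 ω))
  linarith

lemma count_tail {q : Ω → ℝ} (h0 : ∀ ω, 0 ≤ q ω) (h1 : ∀ ω, q ω ≤ 1) (U : Finset Ω)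
    (hU : ∑ ω ∈ U, q ω ≤ 1) (N : ℕ) :
    ∑ B, bw q B * (if N < (U.filter fun ω => B ω = true).card then 1 else 0) ≤ 3 / 2 ^ N := by
  have a1 : ∀ B : Ω → Bool, (if N < (U.filter fun ω => B ω = true).card then (1 : ℝ) else 0)
      ≤ tw 2 U B / 2 ^ N := by
    intro B
    rw [tw_eq_pow]
    split_ifs with h
    · rw [le_div_iff₀ (by positivity), one_mul]
      exact pow_le_pow_right₀ (by norm_num) h.le
    · positivity
  refine (sum_le_sum fun B _ => mul_le_mul_of_nonneg_left (a1 B) (bw_nonneg h0 h1 B)).trans ?_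
  simp_rw [← mul_div_assoc]
  rw [← sum_div, bw_tw]
  have a2 := (prod_one_add_le_exp q h0 U).trans (Real.exp_le_exp.2 hU)
  have a3 := Real.exp_one_lt_d9
  gcongr
  linarith

end

/-- Conditioning on a likely event, followed by sparsification. -/
lemma exists_samples_good {S P : Type*} [Fintype S] [Fintype P] (π : S → ℝ) (hπ0 : ∀ s, 0 ≤ π s)
    (hπ1 : ∑ s, π s = 1) (bad : S → Prop) [DecidablePred bad] (ρ : ℝ)
    (hρ : ∑ s, π s * (if bad s then 1 else 0) ≤ ρ) (hρ1 : ρ ≤ 1 / 2)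
    (Z Z1 : P → S → ℝ) (K K1 ε : ℝ) (hK : 1 ≤ K) (hK1 : 0 ≤ K1) (hε0 : 0 < ε) (hε : ε ≤ 1)
    (hZ0 : ∀ k s, 0 ≤ Z k s) (hZ : ∀ k s, ¬ bad s → Z k s ≤ K)
    (hZ1 : ∀ k s, Z1 k s ≤ Z k s) (hZ1' : ∀ k s, Z1 k s ≤ K1) (d : ℕ) (hd0 : 0 < d)
    (hd : 4 * K ^ 2 * Real.log (2 * Fintype.card P) / ε ^ 2 ≤ d) :
    ∃ s : Fin d → S, ∀ k, (∑ s', π s' * Z1 k s') - K1 * ρ - ε ≤ (∑ i, Z k (s i)) / d ∧
      (∑ i, Z k (s i)) / d ≤ (1 + 2 * ρ) * (∑ s', π s' * Z k s') + ε := by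
  set b := ∑ s, π s * (if bad s then 1 else 0) with hb
  have hb0 : 0 ≤ b := sum_nonneg fun s _ => mul_nonneg (hπ0 s) (by split_ifs <;> norm_num)
  have hm : 0 < 1 - b := by linarith
  let w : S → ℝ := fun s => π s * (if bad s then 0 else 1) / (1 - b)
  have hw0 : ∀ s, 0 ≤ w s := fun s =>
    div_nonneg (mul_nonneg (hπ0 s) (by split_ifs <;> norm_num)) hm.le
  have hw1 : ∑ s, w s = 1 := by
    simp only [w]
    rw [← sum_div, div_eq_one_iff_eq hm.ne', eq_sub_iff_add_eq, hb, ← sum_add_distrib]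
    refine (sum_congr rfl fun s _ => ?_).trans hπ1
    split_ifs <;> simp
  obtain ⟨s, hs⟩ := exists_samples w hw0 hw1 Z K ε hK hε0 hε hZ0
    (fun k s h => hZ k s (fun hc => h (by simp [w, hc]))) d hd0 hd
  refine ⟨s, fun k => ?_⟩
  obtain ⟨h1, h2⟩ := abs_le.1 (hs k)
  have e : ∑ s', w s' * Z k s' = (∑ s', π s' * (if bad s' then 0 else 1) * Z k s') / (1 - b) := by
    rw [sum_div]; exact sum_congr rfl fun s _ => by simp only [w]; ring
  set g := ∑ s', π s' * (if bad s' then 0 else 1) * Z k s' with hg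
  have hg0 : 0 ≤ g := sum_nonneg fun s _ =>
    mul_nonneg (mul_nonneg (hπ0 s) (by split_ifs <;> norm_num)) (hZ0 k s)
  have hg1 : g ≤ ∑ s', π s' * Z k s' := sum_le_sum fun s _ => by
    split_ifs
    · simpa using mul_nonneg (hπ0 s) (hZ0 k s)
    · simp
  have hg2 : (∑ s', π s' * Z1 k s') - K1 * b ≤ g := by
    rw [hb, mul_sum, ← sum_sub_distrib]
    refine sum_le_sum fun s _ => ?_
    split_ifs
    · nlinarith [hπ0 s, hZ1' k s]
    · nlinarith [hπ0 s, hZ1 k s]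
  have hg3 : g ≤ g / (1 - b) := by
    rw [le_div_iff₀ hm]; nlinarith
  have hg4 : g / (1 - b) ≤ (1 + 2 * ρ) * g := by
    rw [div_le_iff₀ hm]
    have : 1 ≤ (1 + 2 * ρ) * (1 - b) := by nlinarith
    nlinarith
  have hg5 := mul_le_mul_of_nonneg_left hρ hK1
  have hg6 := mul_le_mul_of_nonneg_left hg1 (by linarith : 0 ≤ 1 + 2 * ρ)
  rw [e] at h1 h2
  constructor <;> linarith

theorem exists_hash {p : ℝ} (hp : 1 ≤ p) : ∃ C : ℝ, 1 ≤ C ∧
    ∀ {X Ω : Type*} [Fintype X] [Fintype Ω] (Ψ : X → Ω → ℝ) (lam : Ω → ℝ) (S K0 K1 ε : ℝ)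
      (N d : ℕ), (∀ ω, 0 < lam ω) → 0 < S → 0 ≤ K0 → 0 < ε → ε ≤ 1 / 2 →
      (∀ x, (∑ ω, if Ψ x ω = 0 then 0 else lam ω ^ p) ≤ S) →
      (∀ x y ω, |Ψ x ω - Ψ y ω| ≤ K0 * lam ω * lpn p (fun ω => Ψ x ω - Ψ y ω)) →
      K0 ^ p * S / ε ≤ K1 → 1 ≤ K1 → 1 ≤ N →
      3 * (Fintype.card X : ℝ) ^ 2 * K1 / ε ≤ 2 ^ N → 0 < d →
      4 * ((N : ℝ) ^ p * K1) ^ 2 * Real.log (2 * (Fintype.card X : ℝ) ^ 2) / ε ^ 2 ≤ d →
      ∃ g : X → Fin d → ℝ, ∀ x y,
        (1 - C * ε) * ∑ ω, |Ψ x ω - Ψ y ω| ^ p ≤ ∑ i, |g x i - g y i| ^ p ∧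
        ∑ i, |g x i - g y i| ^ p ≤ (1 + C * ε) * ∑ ω, |Ψ x ω - Ψ y ω| ^ p := by
  classical
  have hp0 : 0 < p := by linarith
  obtain ⟨C, hC0, hC⟩ := exists_pow_bound hp
  refine ⟨8 * C + 4, by linarith, ?_⟩
  intro X Ω _ _ Ψ lam S K0 K1 ε N d hlam hS hK0 hε0 hε hsupp hlip hK1 hK1' hN hN2 hd0 hd
  set η := ε / S with hη
  have hη0 : 0 < η := by positivity
  let q : Ω → ℝ := fun ω => min (η * lam ω ^ p) 1
  have hlp : ∀ ω, 0 < lam ω ^ p := fun ω => Real.rpow_pos_of_pos (hlam ω) _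
  have hq0 : ∀ ω, 0 ≤ q ω := fun ω => le_min (mul_pos hη0 (hlp ω)).le zero_le_one
  have hq1 : ∀ ω, q ω ≤ 1 := fun ω => min_le_right _ _
  let U : X × X → Finset Ω := fun k => univ.filter fun ω => Ψ k.1 ω ≠ 0 ∨ Ψ k.2 ω ≠ 0
  have hqU : ∀ x ω, Ψ x ω ≠ 0 → q ω = η * lam ω ^ p := by
    intro x ω h
    refine min_eq_left ?_
    have a1 : (if Ψ x ω = 0 then 0 else lam ω ^ p) ≤ S :=
      le_trans (single_le_sum (f := fun ω => if Ψ x ω = 0 then 0 else lam ω ^ p)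
        (fun ω _ => by split_ifs; exacts [le_rfl, (hlp ω).le]) (mem_univ ω)) (hsupp x)
    rw [if_neg h] at a1
    calc η * lam ω ^ p ≤ η * S := mul_le_mul_of_nonneg_left a1 hη0.le
      _ = ε := by rw [hη]; field_simp
      _ ≤ 1 := by linarith
  have hUsum : ∀ k, ∑ ω ∈ U k, q ω ≤ 2 * ε := by
    intro k
    have a1 : ∑ ω ∈ U k, q ω ≤ ∑ ω, η * ((if Ψ k.1 ω = 0 then 0 else lam ω ^ p)
        + (if Ψ k.2 ω = 0 then 0 else lam ω ^ p)) := by
      simp only [U]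
      rw [sum_filter]
      refine sum_le_sum fun ω _ => ?_
      have b1 : q ω ≤ η * lam ω ^ p := min_le_left _ _
      have b2 := mul_pos hη0 (hlp ω)
      by_cases c1 : Ψ k.1 ω = 0 <;> by_cases c2 : Ψ k.2 ω = 0 <;> simp [c1, c2] <;> nlinarith
    rw [← mul_sum, sum_add_distrib] at a1
    have a2 := mul_le_mul_of_nonneg_left (add_le_add (hsupp k.1) (hsupp k.2)) hη0.le
    have a3 : η * (S + S) = 2 * ε := by rw [hη]; field_simp; norm_num
    linarith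
  let c : Ω → ℝ := fun ω => (η * lam ω ^ p) ^ (-(1 / p))
  have hc0 : ∀ ω, 0 < c ω := fun ω => Real.rpow_pos_of_pos (mul_pos hη0 (hlp ω)) _
  have hcp : ∀ ω, c ω ^ p = (η * lam ω ^ p)⁻¹ := fun ω => by
    simp only [c]
    rw [← Real.rpow_mul (mul_pos hη0 (hlp ω)).le, neg_mul, one_div_mul_cancel hp0.ne',
      Real.rpow_neg_one]
  let P : X × X → ℝ := fun k => ∑ ω, |Ψ k.1 ω - Ψ k.2 ω| ^ p
  have hP0 : ∀ k, 0 ≤ P k := fun k => sum_abs_rpow_nonneg _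
  let a : X × X → Ω → ℝ := fun k ω => (Ψ k.1 ω - Ψ k.2 ω) * c ω
  have hap : ∀ k ω, |a k ω| ^ p = |Ψ k.1 ω - Ψ k.2 ω| ^ p * (η * lam ω ^ p)⁻¹ := fun k ω => by
    simp only [a]
    rw [abs_mul, abs_of_pos (hc0 ω), Real.mul_rpow (abs_nonneg _) (hc0 ω).le, hcp]
  have haP : ∀ k, ∑ ω ∈ U k, q ω * |a k ω| ^ p = P k := by
    intro k
    simp only [U, P]
    rw [sum_filter]
    refine sum_congr rfl fun ω _ => ?_
    split_ifs with h
    · have : q ω = η * lam ω ^ p := h.elim (hqU _ ω) (hqU _ ω)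
      have b2 := mul_pos hη0 (hlp ω)
      rw [hap, this, mul_comm, mul_assoc, inv_mul_cancel₀ b2.ne', mul_one]
    · push Not at h
      rw [h.1, h.2, sub_zero, abs_zero, Real.zero_rpow hp0.ne']
  have haK : ∀ k ω, |a k ω| ^ p ≤ K1 * P k := by
    intro k ω
    have b1 := Real.rpow_le_rpow (abs_nonneg _) (hlip k.1 k.2 ω) hp0.le
    rw [Real.mul_rpow (mul_nonneg hK0 (hlam ω).le) (lpn_nonneg _), Real.mul_rpow hK0 (hlam ω).le,
      lpn_rpow hp0] at b1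
    have b2 := mul_pos hη0 (hlp ω)
    rw [hap]
    calc _ ≤ (K0 ^ p * lam ω ^ p * P k) * (η * lam ω ^ p)⁻¹ :=
          mul_le_mul_of_nonneg_right b1 (inv_pos.2 b2).le
      _ = K0 ^ p * S / ε * P k := by
          have := hlp ω
          rw [hη]; field_simp
      _ ≤ K1 * P k := mul_le_mul_of_nonneg_right hK1 (hP0 k)
  let Y : X × X → (Ω → Bool) → ℝ := fun k B => ∑ ω ∈ U k, (if B ω then 1 else 0) * a k ω
  let Y1 : X × X → (Ω → Bool) → ℝ := fun k B =>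
    ∑ ω ∈ U k, |a k ω| ^ p * ((if B ω then 1 else 0) * tw 0 ((U k).erase ω) B)
  let bad : (Ω → Bool) → Prop := fun B => ∃ k, N < ((U k).filter fun ω => B ω = true).card
  have hK10 : 0 < K1 := by linarith
  have hbad : ∑ B, bw q B * (if bad B then 1 else 0) ≤ ε / K1 := by
    have a1 : ∀ B, (if bad B then (1 : ℝ) else 0)
        ≤ ∑ k, if N < ((U k).filter fun ω => B ω = true).card then 1 else 0 := by
      intro B
      split_ifs with h
      · obtain ⟨k, hk⟩ := h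
        have := single_le_sum
          (f := fun k => if N < ((U k).filter fun ω => B ω = true).card then (1 : ℝ) else 0)
          (fun k _ => by split_ifs <;> norm_num) (mem_univ k)
        simpa [hk] using this
      · exact sum_nonneg fun k _ => by split_ifs <;> norm_num
    refine (sum_le_sum fun B _ => mul_le_mul_of_nonneg_left (a1 B) (bw_nonneg hq0 hq1 B)).trans ?_
    simp_rw [mul_sum]
    rw [sum_comm]
    refine (sum_le_sum fun k _ => count_tail hq0 hq1 (U k) (by linarith [hUsum k]) N).trans ?_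
    rw [sum_const, card_univ, nsmul_eq_mul, Fintype.card_prod, ← mul_div_assoc,
      div_le_div_iff₀ (by positivity) hK10]
    rw [div_le_iff₀ hε0] at hN2
    push_cast
    nlinarith
  have hρ : ε / K1 ≤ ε := div_le_self hε0.le hK1'
  have hNp : (1 : ℝ) ≤ (N : ℝ) ^ p := Real.one_le_rpow (by exact_mod_cast hN) hp0.le
  obtain ⟨s, hs⟩ := exists_samples_good (bw q) (bw_nonneg hq0 hq1) (bw_sum q) bad (ε / K1) hbad
    (by linarith) (fun k B => |Y k B| ^ p / P k) (fun k B => Y1 k B / P k) ((N : ℝ) ^ p * K1) K1 ε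
    (by nlinarith) hK10.le hε0 (by linarith)
    (fun k B => div_nonneg (Real.rpow_nonneg (abs_nonneg _) _) (hP0 k))
    (fun k B hB => by
      have b1 : ((U k).filter fun ω => B ω = true).card ≤ N := by
        by_contra hc
        exact hB ⟨k, not_le.1 hc⟩
      have b2 := sel_bound hp (mul_nonneg hK10.le (hP0 k)) (U k) (a k) (haK k) B N b1
      exact div_le_of_le_mul₀ (hP0 k) (by positivity) (by rw [mul_assoc]; exact b2))
    (fun k B => div_le_div_of_nonneg_right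
      ((sel_lower (mul_nonneg hK10.le (hP0 k)) (U k) (a k) (haK k) B).trans (min_le_right _ _))
      (hP0 k))
    (fun k B => div_le_of_le_mul₀ (hP0 k) hK10.le
      ((sel_lower (mul_nonneg hK10.le (hP0 k)) (U k) (a k) (haK k) B).trans (min_le_left _ _)))
    d hd0 (by rw [Fintype.card_prod]; push_cast; rw [← sq]; exact hd)
  have hd0' : (0 : ℝ) < d := by exact_mod_cast hd0
  refine ⟨fun x i => (d : ℝ) ^ (-(1 / p)) * ∑ ω, (if s i ω then 1 else 0) * (Ψ x ω * c ω),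
    fun x y => ?_⟩
  have hg : ∑ i, |(d : ℝ) ^ (-(1 / p)) * ∑ ω, (if s i ω then 1 else 0) * (Ψ x ω * c ω)
      - (d : ℝ) ^ (-(1 / p)) * ∑ ω, (if s i ω then 1 else 0) * (Ψ y ω * c ω)| ^ p
      = (∑ i, |Y (x, y) (s i)| ^ p) / d := by
    rw [sum_div]
    refine sum_congr rfl fun i _ => ?_
    have b1 : ∑ ω, (if s i ω then 1 else 0) * (Ψ x ω * c ω)
        - ∑ ω, (if s i ω then 1 else 0) * (Ψ y ω * c ω) = Y (x, y) (s i) := by
      simp only [Y, U, a]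
      rw [← sum_sub_distrib, sum_filter]
      refine sum_congr rfl fun ω _ => ?_
      by_cases h : Ψ x ω ≠ 0 ∨ Ψ y ω ≠ 0
      · rw [if_pos h]; ring
      · rw [if_neg h]
        push Not at h
        rw [h.1, h.2]; ring
    rw [← mul_sub, b1, abs_mul, abs_of_pos (Real.rpow_pos_of_pos hd0' _),
      Real.mul_rpow (Real.rpow_nonneg hd0'.le _) (abs_nonneg _), ← Real.rpow_mul hd0'.le, neg_mul,
      one_div_mul_cancel hp0.ne', Real.rpow_neg_one]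
    ring
  rw [hg]
  change (1 - (8 * C + 4) * ε) * P (x, y) ≤ _ ∧ _ ≤ (1 + (8 * C + 4) * ε) * P (x, y)
  rcases eq_or_lt_of_le (hP0 (x, y)) with h0 | h0
  · have b1 : ∀ i, |Y (x, y) (s i)| ^ p = 0 := by
      intro i
      have b2 := sel_bound hp (mul_nonneg hK10.le (hP0 (x, y))) (U (x, y)) (a (x, y))
        (haK (x, y)) (s i) _ le_rfl
      rw [← h0, mul_zero, mul_zero] at b2
      exact le_antisymm b2 (Real.rpow_nonneg (abs_nonneg _) _)
    simp only [b1, ← h0]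
    simp
  obtain ⟨h1, h2⟩ := hs (x, y)
  simp_rw [← mul_div_assoc] at h1 h2
  rw [← sum_div, ← sum_div] at h1 h2
  have m1 := moment_upper hp hC0 hC hq0 hq1 (U (x, y)) (a (x, y)) (by linarith) (hUsum (x, y))
  have m2 := moment_lower (p := p) hq0 hq1 (U (x, y)) (a (x, y)) (hUsum (x, y))
  rw [haP] at m1 m2
  have m3 : 1 - 2 * ε ≤ (∑ B, bw q B * Y1 (x, y) B) / P (x, y) := by
    rw [le_div_iff₀ h0]; exact m2
  have m4 : (∑ B, bw q B * |Y (x, y) B| ^ p) / P (x, y) ≤ 1 + 4 * C * ε := by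
    rw [div_le_iff₀ h0]; exact m1
  have m5 : K1 * ε / K1 = ε := by field_simp
  have e : (∑ i, |Y (x, y) (s i)| ^ p) / d
      = (∑ i, |Y (x, y) (s i)| ^ p) / P (x, y) / d * P (x, y) := by field_simp
  rw [e]
  have hCε : 0 ≤ C * ε := mul_nonneg hC0 hε0.le
  constructor
  · refine mul_le_mul_of_nonneg_right ?_ h0.le
    linarith
  · refine mul_le_mul_of_nonneg_right ?_ h0.le
    have m6 : (1 + 2 * (ε / K1)) * ((∑ B, bw q B * |Y (x, y) B| ^ p) / P (x, y))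
        ≤ (1 + 2 * ε) * (1 + 4 * C * ε) := by
      refine mul_le_mul ?_ m4 (div_nonneg (sum_nonneg fun B _ => mul_nonneg (bw_nonneg hq0 hq1 B)
        (Real.rpow_nonneg (abs_nonneg _) _)) h0.le) (by linarith)
      linarith
    have m7 : C * ε * ε ≤ C * ε * (1 / 2) := mul_le_mul_of_nonneg_left hε hCε
    have m8 : (1 + 2 * ε) * (1 + 4 * C * ε) = 1 + 2 * ε + 4 * (C * ε) + 8 * (C * ε * ε) := by ring
    have m9 : (1 + 2 * ε / K1) = 1 + 2 * (ε / K1) := by ring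
    rw [m9] at h2
    linarith

end Vale.Agent.P249
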