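import Vale.Agent.P249.Basic
import Mathlib.Algebra.BigOperators.Intervals
import Mathlib.Algebra.BigOperators.Fin
import Mathlib.Algebra.Order.Archimedean.Basic

/-! Lipschitz truncation at dyadic levels combined with slowly moving tent vectors. -/

open Finset

namespace Vale.Agent.P249

lemma lpn_mono {p : ℝ} (hp : 0 < p) {T : Type*} [Fintype T] {v w : T → ℝ}
    (h : ∀ t, |v t| ≤ |w t|) : lpn p v ≤ lpn p w :=
  lpn_le_of_sum_le hp v (lpn_nonneg w) (by
    rw [lpn_rpow hp]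
    exact sum_le_sum fun t _ => Real.rpow_le_rpow (abs_nonneg _) (h t) hp.le)

lemma exists_tent {p : ℝ} (hp : 1 ≤ p) (V : ℕ) (hV : 1 ≤ V) : ∃ u : ℕ → ℕ → ℝ,
    (∀ k R, k + 4 * V ≤ R → ∑ τ ∈ range R, |u k τ| ^ p = 1) ∧
    (∀ k R, ∑ τ ∈ range R, |u (k + 1) τ - u k τ| ^ p ≤ (3 / V) ^ p) ∧
    (∀ k τ, u k τ ≠ 0 → k ≤ τ ∧ τ ≤ k + 4 * V) ∧
    (∀ k τ, |u k τ| ≤ 2) := by
  have hp0 : 0 < p := by linarith
  have hV1 : (1 : ℝ) ≤ V := by exact_mod_cast hV
  let g : ℝ → ℝ := fun y => max 0 (2 * V - |y - 2 * V|)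
  have hg0 : ∀ y, 0 ≤ g y := fun y => le_max_left _ _
  have hg1 : ∀ y, g y ≤ 2 * V := fun y => max_le (by linarith) (by linarith [abs_nonneg (y - 2 * V)])
  have hgs : ∀ y, g y ≠ 0 → 0 < y ∧ y < 4 * V := by
    intro y hy
    have : 0 < 2 * V - |y - 2 * V| := by
      by_contra hc
      exact hy (max_eq_left (not_lt.1 hc))
    have h2 : |y - 2 * V| < 2 * V := by linarith
    rw [abs_lt] at h2
    constructor <;> linarith [h2.1, h2.2]
  have hgl : ∀ y, |g (y - 1) - g y| ≤ 1 := by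
    intro y
    refine (abs_max_sub_max_le_max _ _ _ _).trans (max_le (by simp) ?_)
    have := abs_abs_sub_abs_le_abs_sub (y - 2 * V) (y - 1 - 2 * V)
    have e : y - 2 * V - (y - 1 - 2 * V) = 1 := by ring
    rw [e, abs_one] at this
    have e2 : 2 * V - |y - 1 - 2 * V| - (2 * V - |y - 2 * V|) = |y - 2 * V| - |y - 1 - 2 * V| := by
      ring
    rw [e2]; exact this
  set Zp := ∑ j ∈ range (4 * V), |g j| ^ p with hZp
  have hZlow : 2 * V * (V : ℝ) ^ p ≤ Zp := by
    have h1 : ∑ _j ∈ Ico V (3 * V), (V : ℝ) ^ p ≤ ∑ j ∈ Ico V (3 * V), |g j| ^ p := by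
      refine sum_le_sum fun j hj => Real.rpow_le_rpow (by positivity) ?_ hp0.le
      rw [mem_Ico] at hj
      have a1 : (V : ℝ) ≤ j := by exact_mod_cast hj.1
      have a2 : (j : ℝ) ≤ 3 * V := by exact_mod_cast hj.2.le
      rw [abs_of_nonneg (hg0 _)]
      refine le_max_of_le_right ?_
      have : |(j : ℝ) - 2 * V| ≤ V := abs_le.2 ⟨by linarith, by linarith⟩
      linarith
    have h2 : ∑ j ∈ Ico V (3 * V), |g j| ^ p ≤ Zp :=
      sum_le_sum_of_subset_of_nonneg (fun j hj => by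
        rw [mem_Ico] at hj; rw [mem_range]; omega)
        (fun _ _ _ => Real.rpow_nonneg (abs_nonneg _) _)
    rw [sum_const, Nat.card_Ico, nsmul_eq_mul, show 3 * V - V = 2 * V by omega] at h1
    push_cast at h1
    linarith
  have hVp : 0 < (V : ℝ) ^ p := by positivity
  have hZp0 : 0 < Zp := by nlinarith
  set Z := Zp ^ (1 / p) with hZ
  have hZ0 : 0 < Z := Real.rpow_pos_of_pos hZp0 _
  have hZZ : Z ^ p = Zp := by
    rw [hZ, ← Real.rpow_mul hZp0.le, one_div_mul_cancel hp0.ne', Real.rpow_one]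
  have hZV : (V : ℝ) ≤ Z := by
    refine (Real.rpow_le_rpow_iff (by positivity) hZ0.le hp0).1 ?_
    rw [hZZ]; nlinarith
  have hdiv : ∀ y : ℝ, |y / Z| ^ p = |y| ^ p / Zp := fun y => by
    rw [abs_div, abs_of_pos hZ0, Real.div_rpow (abs_nonneg _) hZ0.le, hZZ]
  refine ⟨fun k τ => g ((τ : ℝ) - k) / Z, ?_, ?_, ?_, ?_⟩
  · intro k R hR
    simp_rw [hdiv]
    rw [← sum_div, div_eq_one_iff_eq hZp0.ne']
    have h1 : ∑ τ ∈ Ico k (k + 4 * V), |g ((τ : ℝ) - k)| ^ p
        = ∑ τ ∈ range R, |g ((τ : ℝ) - k)| ^ p := by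
      refine sum_subset (fun j hj => by rw [mem_Ico] at hj; rw [mem_range]; omega) ?_
      intro τ _ hτ
      have : g ((τ : ℝ) - k) = 0 := by
        by_contra hc
        obtain ⟨a1, a2⟩ := hgs _ hc
        apply hτ
        rw [mem_Ico]
        have b1 : (k : ℝ) < τ := by linarith
        have b2 : (τ : ℝ) < ((k + 4 * V : ℕ) : ℝ) := by push_cast; linarith
        exact ⟨(Nat.cast_lt.1 b1).le, Nat.cast_lt.1 b2⟩
      rw [this, abs_zero, Real.zero_rpow hp0.ne']
    rw [← h1, sum_Ico_eq_sum_range, hZp, show k + 4 * V - k = 4 * V by omega]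
    refine sum_congr rfl fun j _ => ?_
    push_cast
    rw [add_sub_cancel_left]
  · intro k R
    simp_rw [← sub_div, hdiv]
    rw [← sum_div]
    have h1 : ∑ τ ∈ range R, |g ((τ : ℝ) - ((k + 1 : ℕ) : ℝ)) - g ((τ : ℝ) - k)| ^ p
        ≤ ∑ τ ∈ range R, if τ ∈ Ico k (k + 4 * V + 1) then (1 : ℝ) else 0 := by
      refine sum_le_sum fun τ _ => ?_
      split_ifs with hτ
      · have := hgl ((τ : ℝ) - k)
        have e : (τ : ℝ) - ((k + 1 : ℕ) : ℝ) = (τ : ℝ) - k - 1 := by push_cast; ring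
        rw [e]
        exact Real.rpow_le_one (abs_nonneg _) this hp0.le
      · have a1 : g ((τ : ℝ) - k) = 0 := by
          by_contra hc
          obtain ⟨a1, a2⟩ := hgs _ hc
          apply hτ
          rw [mem_Ico]
          have b1 : (k : ℝ) < τ := by linarith
          have b2 : (τ : ℝ) < ((k + 4 * V + 1 : ℕ) : ℝ) := by push_cast; linarith
          exact ⟨(Nat.cast_lt.1 b1).le, Nat.cast_lt.1 b2⟩
        have a2 : g ((τ : ℝ) - ((k + 1 : ℕ) : ℝ)) = 0 := by
          by_contra hc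
          obtain ⟨a1, a2⟩ := hgs _ hc
          apply hτ
          rw [mem_Ico]
          push_cast at a1 a2
          have b1 : (k : ℝ) < τ := by linarith
          have b2 : (τ : ℝ) < ((k + 4 * V + 1 : ℕ) : ℝ) := by push_cast; linarith
          exact ⟨(Nat.cast_lt.1 b1).le, Nat.cast_lt.1 b2⟩
        rw [a1, a2, sub_zero, abs_zero, Real.zero_rpow hp0.ne']
    have h2 : (∑ τ ∈ range R, if τ ∈ Ico k (k + 4 * V + 1) then (1 : ℝ) else 0) ≤ 4 * V + 1 := by
      rw [← sum_filter, sum_const, nsmul_eq_mul, mul_one]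
      have : (filter (fun τ => τ ∈ Ico k (k + 4 * V + 1)) (range R)).card ≤ 4 * V + 1 := by
        refine (card_le_card (t := Ico k (k + 4 * V + 1)) fun τ hτ => (mem_filter.1 hτ).2).trans ?_
        rw [Nat.card_Ico]; omega
      exact_mod_cast this
    rw [Real.div_rpow (by norm_num) (by positivity), div_le_div_iff₀ hZp0 hVp]
    have h3 : (3 : ℝ) ≤ 3 ^ p := by
      have := Real.rpow_le_rpow_of_exponent_le (x := 3) (by norm_num) hp
      rwa [Real.rpow_one] at this
    have h4 := mul_le_mul_of_nonneg_right (h1.trans h2) hVp.le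
    have h5 := mul_le_mul_of_nonneg_right h3 hZp0.le
    nlinarith
  · intro k τ h
    have : g ((τ : ℝ) - k) ≠ 0 := fun hc => h (by simp only [hc, zero_div])
    obtain ⟨a1, a2⟩ := hgs _ this
    have b1 : (k : ℝ) < τ := by linarith
    have b2 : (τ : ℝ) < ((k + 4 * V : ℕ) : ℝ) := by push_cast; linarith
    exact ⟨(Nat.cast_lt.1 b1).le, (Nat.cast_lt.1 b2).le⟩
  · intro k τ
    rw [abs_div, abs_of_pos hZ0, abs_of_nonneg (hg0 _), div_le_iff₀ hZ0]
    linarith [hg1 ((τ : ℝ) - k)]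

lemma exists_mcshane {X : Type*} (d : X → X → ℝ) (hd0 : ∀ x y, 0 ≤ d x y)
    (hself : ∀ x, d x x = 0) (hsymm : ∀ x y, d x y = d y x)
    (htri : ∀ x y z, d x z ≤ d x y + d y z) (f : X → ℝ) (S : Finset X) (L : ℝ) (hL : 0 ≤ L)
    (hf : ∀ x ∈ S, ∀ y ∈ S, |f x - f y| ≤ L * d x y) :
    ∃ e : X → ℝ, (S = ∅ → e = 0) ∧ (∀ x ∈ S, e x = f x) ∧ ∀ x y, |e x - e y| ≤ L * d x y := by
  rcases S.eq_empty_or_nonempty with hS | hS
  · refine ⟨0, fun _ => rfl, by simp [hS], fun x y => ?_⟩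
    simpa using mul_nonneg hL (hd0 x y)
  refine ⟨fun x => S.inf' hS fun z => f z + L * d x z, fun h => absurd h hS.ne_empty, ?_, ?_⟩
  · intro x hx
    refine le_antisymm ?_ ?_
    · have := inf'_le (fun z => f z + L * d x z) hx
      rwa [hself, mul_zero, add_zero] at this
    · refine le_inf' hS _ fun z hz => ?_
      have := (abs_le.1 (hf x hx z hz)).2
      linarith
  · have key : ∀ x y, (S.inf' hS fun z => f z + L * d x z)
        - (S.inf' hS fun z => f z + L * d y z) ≤ L * d x y := by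
      intro x y
      obtain ⟨z, hz, hz'⟩ := exists_mem_eq_inf' hS fun z => f z + L * d y z
      rw [hz']
      have h1 := inf'_le (fun z => f z + L * d x z) hz
      have h2 := mul_le_mul_of_nonneg_left (htri x y z) hL
      linarith
    intro x y
    rw [abs_le]
    constructor
    · have := key y x
      rw [hsymm y x] at this
      linarith
    · exact key x y

lemma sum_ite_le_range (g : ℕ → ℝ) (hg : ∀ k, 0 ≤ g k) (M m : ℕ) :
    (∑ k ∈ range M, if k ≤ m then g k else 0) ≤ ∑ k ∈ range (m + 1), g k := by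
  rw [← sum_filter]
  refine sum_le_sum_of_subset_of_nonneg (fun k hk => ?_) fun k _ _ => hg k
  rw [mem_filter] at hk
  rw [mem_range]; omega

lemma sum_two_pow_rpow_le {p : ℝ} (hp : 1 ≤ p) (m : ℕ) :
    ∑ k ∈ range (m + 1), ((2 : ℝ) ^ k) ^ p ≤ 2 * ((2 : ℝ) ^ m) ^ p := by
  have h2 : (2 : ℝ) ≤ 2 ^ p := by
    have := Real.rpow_le_rpow_of_exponent_le (x := 2) (by norm_num) hp
    rwa [Real.rpow_one] at this
  induction m with
  | zero => simp
  | succ m ih =>
    rw [sum_range_succ, pow_succ, Real.mul_rpow (by positivity) (by norm_num)]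
    have : 0 ≤ ((2 : ℝ) ^ m) ^ p := by positivity
    nlinarith

lemma abel_sum (u D : ℕ → ℝ) (h0 : D 0 = 0) (k0 : ℕ) :
    ∑ k ∈ range (k0 + 1), u k * (D (k + 1) - D k)
      = D (k0 + 1) * u k0 - ∑ k ∈ range k0, D (k + 1) * (u (k + 1) - u k) := by
  induction k0 with
  | zero => simp [h0, mul_comm]
  | succ k ih => rw [sum_range_succ, ih, sum_range_succ]; ring

lemma exists_coord {p : ℝ} (hp : 1 ≤ p) {X : Type*} [Fintype X] (d : X → X → ℝ)
    (hd0 : ∀ x y, 0 ≤ d x y) (hself : ∀ x, d x x = 0) (hsymm : ∀ x y, d x y = d y x)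
    (htri : ∀ x y z, d x z ≤ d x y + d y z) (f : X → ℝ) (κ : X → ℕ) (δ : ℝ) (hδ : 0 < δ)
    (hf : ∀ x y, |f x - f y| ≤ d x y * (δ * 2 ^ κ x + δ * 2 ^ κ y)) (V M : ℕ) (hV : 1 ≤ V)
    (hM : ∀ x, κ x < M) :
    ∃ ψ : X → ℕ → ℝ,
      (∀ x y, ∃ w : Fin (M + 4 * V) → ℝ, ∑ τ, |w τ| ^ p = |f x - f y| ^ p ∧
        ∑ τ : Fin (M + 4 * V), |ψ x τ - ψ y τ - w τ| ^ p
          ≤ (6 / V * d x y * (δ * 2 ^ κ x + δ * 2 ^ κ y)) ^ p) ∧
      (∀ x τ, ψ x τ ≠ 0 → τ ≤ κ x + 4 * V) ∧
      ∀ x y τ, |ψ x τ - ψ y τ| ≤ 12 * (δ * 2 ^ τ) * d x y := by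
  classical
  have hp0 : 0 < p := by linarith
  have hV0 : (0 : ℝ) < V := by exact_mod_cast hV
  obtain ⟨u, hu1, hu2, hu3, hu4⟩ := exists_tent hp V hV
  have hex : ∀ k : ℕ, ∃ e : X → ℝ, (univ.filter (fun x => κ x < k) = ∅ → e = 0) ∧
      (∀ x ∈ univ.filter (fun x => κ x < k), e x = f x) ∧
      ∀ x y, |e x - e y| ≤ δ * 2 ^ k * d x y := by
    intro k
    refine exists_mcshane d hd0 hself hsymm htri f _ _ (by positivity) ?_
    intro x hx y hy
    have hx' := (mem_filter.1 hx).2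
    have hy' := (mem_filter.1 hy).2
    refine (hf x y).trans ?_
    have a1 : (2 : ℝ) ^ (κ x + 1) ≤ 2 ^ k := pow_le_pow_right₀ (by norm_num) hx'
    have a2 : (2 : ℝ) ^ (κ y + 1) ≤ 2 ^ k := pow_le_pow_right₀ (by norm_num) hy'
    rw [pow_succ] at a1 a2
    rw [mul_comm]
    refine mul_le_mul_of_nonneg_right ?_ (hd0 x y)
    nlinarith
  choose e he0 he1 he2 using hex
  have he0' : e 0 = 0 := he0 0 (by simp)
  have he1' : ∀ k x, κ x < k → e k x = f x := fun k x h =>
    he1 k x (mem_filter.2 ⟨mem_univ _, h⟩)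
  refine ⟨fun x τ => ∑ k ∈ range M, u k τ * (e (k + 1) x - e k x), ?_, ?_, ?_⟩
  · intro x y
    set k0 := max (κ x) (κ y) with hk0
    have hk0M : k0 < M := max_lt (hM x) (hM y)
    let D : ℕ → ℝ := fun k => e k x - e k y
    have hD0 : D 0 = 0 := by simp [D, he0']
    have hD1 : ∀ k, k0 < k → D k = f x - f y := fun k hk => by
      simp only [D]
      rw [he1' k x ((le_max_left _ _).trans_lt hk), he1' k y ((le_max_right _ _).trans_lt hk)]
    refine ⟨fun τ => (f x - f y) * u k0 τ, ?_, ?_⟩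
    · have : ∀ τ : Fin (M + 4 * V), |(f x - f y) * u k0 τ| ^ p = |f x - f y| ^ p * |u k0 τ| ^ p :=
        fun τ => by rw [abs_mul, Real.mul_rpow (abs_nonneg _) (abs_nonneg _)]
      simp_rw [this]
      rw [← mul_sum, Fin.sum_univ_eq_sum_range (fun τ => |u k0 τ| ^ p), hu1 k0 _ (by omega),
        mul_one]
    · have hrepr : ∀ τ : ℕ, ∑ k ∈ range M, u k τ * (e (k + 1) x - e k x)
          - ∑ k ∈ range M, u k τ * (e (k + 1) y - e k y) - (f x - f y) * u k0 τ
          = ∑ k ∈ range k0, -D (k + 1) * (u (k + 1) τ - u k τ) := by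
        intro τ
        rw [← sum_sub_distrib]
        have h1 : ∑ k ∈ range (k0 + 1), u k τ * (D (k + 1) - D k)
            = ∑ k ∈ range M, (u k τ * (e (k + 1) x - e k x) - u k τ * (e (k + 1) y - e k y)) := by
          rw [sum_subset (range_subset_range.2 (Nat.succ_le_of_lt hk0M))]
          · exact sum_congr rfl fun k _ => by simp only [D]; ring
          · intro k _ hk
            rw [mem_range, not_lt] at hk
            rw [hD1 (k + 1) (by omega), hD1 k (by omega), sub_self, mul_zero]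
        rw [← h1, abel_sum (fun k => u k τ) D hD0, hD1 (k0 + 1) (by omega)]
        simp_rw [neg_mul]
        rw [sum_neg_distrib]
        ring
      simp_rw [hrepr]
      rw [← lpn_rpow hp0 (fun τ : Fin (M + 4 * V) =>
        ∑ k ∈ range k0, -D (k + 1) * (u (k + 1) τ - u k τ))]
      refine Real.rpow_le_rpow (lpn_nonneg _) ?_ hp0.le
      refine (lpn_sum_le hp (range k0)
        (fun k (τ : Fin (M + 4 * V)) => -D (k + 1) * (u (k + 1) τ - u k τ))).trans ?_
      have h2 : ∀ k, lpn p (fun τ : Fin (M + 4 * V) => -D (k + 1) * (u (k + 1) τ - u k τ))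
          ≤ 3 / V * (δ * d x y) * 2 ^ (k + 1) := by
        intro k
        rw [lpn_mul hp0, abs_neg]
        have a1 : lpn p (fun τ : Fin (M + 4 * V) => u (k + 1) τ - u k τ) ≤ 3 / V := by
          refine lpn_le_of_sum_le hp0 _ (by positivity) ?_
          rw [Fin.sum_univ_eq_sum_range (fun τ => |u (k + 1) τ - u k τ| ^ p)]
          exact hu2 k _
        have a2 : |D (k + 1)| ≤ δ * 2 ^ (k + 1) * d x y := he2 (k + 1) x y
        calc _ ≤ (δ * 2 ^ (k + 1) * d x y) * (3 / V) :=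
              mul_le_mul a2 a1 (lpn_nonneg _) (mul_nonneg (by positivity) (hd0 x y))
          _ = _ := by ring
      refine (sum_le_sum fun k _ => h2 k).trans ?_
      rw [← mul_sum]
      have h3 : ∀ m : ℕ, ∑ k ∈ range m, (2 : ℝ) ^ (k + 1) ≤ 2 * 2 ^ m := by
        intro m
        induction m with
        | zero => simp
        | succ m ih => rw [sum_range_succ, pow_succ]; linarith
      have h4 : (2 : ℝ) ^ k0 ≤ 2 ^ κ x + 2 ^ κ y := by
        have b1 : (0 : ℝ) < 2 ^ κ x := by positivity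
        have b2 : (0 : ℝ) < 2 ^ κ y := by positivity
        rcases max_choice (κ x) (κ y) with h | h <;> rw [hk0, h] <;> linarith
      have h5 : 0 ≤ 3 / V * (δ * d x y) := mul_nonneg (by positivity) (mul_nonneg hδ.le (hd0 x y))
      calc _ ≤ 3 / V * (δ * d x y) * (2 * (2 ^ κ x + 2 ^ κ y)) :=
            mul_le_mul_of_nonneg_left (by linarith [h3 k0]) h5
        _ = _ := by ring
  · intro x τ h
    obtain ⟨k, _, hk⟩ := exists_ne_zero_of_sum_ne_zero h
    have a1 := (hu3 k τ (left_ne_zero_of_mul hk)).2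
    have a2 : k ≤ κ x := by
      by_contra hc
      apply right_ne_zero_of_mul hk
      rw [he1' (k + 1) x (by omega), he1' k x (by omega), sub_self]
    omega
  · intro x y τ
    rw [← sum_sub_distrib]
    refine (abs_sum_le_sum_abs _ _).trans ?_
    have h1 : ∀ k, |u k τ * (e (k + 1) x - e k x) - u k τ * (e (k + 1) y - e k y)|
        ≤ if k ≤ τ then 6 * (δ * d x y) * ((2 : ℝ) ^ k) ^ (1 : ℝ) else 0 := by
      intro k
      split_ifs with hk
      · have e1 : u k τ * (e (k + 1) x - e k x) - u k τ * (e (k + 1) y - e k y)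
            = u k τ * ((e (k + 1) x - e (k + 1) y) - (e k x - e k y)) := by ring
        rw [e1, abs_mul, Real.rpow_one]
        have a1 := he2 (k + 1) x y
        have a2 := he2 k x y
        have a3 := abs_sub (e (k + 1) x - e (k + 1) y) (e k x - e k y)
        rw [pow_succ] at a1
        calc _ ≤ 2 * (δ * (2 ^ k * 2) * d x y + δ * 2 ^ k * d x y) :=
              mul_le_mul (hu4 k τ) (by linarith) (abs_nonneg _) (by norm_num)
          _ = _ := by ring
      · have : u k τ = 0 := by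
          by_contra hc
          exact hk (hu3 k τ hc).1
        simp [this]
    refine (sum_le_sum fun k _ => h1 k).trans ?_
    have h6 : 0 ≤ 6 * (δ * d x y) := mul_nonneg (by norm_num) (mul_nonneg hδ.le (hd0 x y))
    refine (sum_ite_le_range (fun k => 6 * (δ * d x y) * ((2 : ℝ) ^ k) ^ (1 : ℝ))
      (fun k => mul_nonneg h6 (by positivity)) M τ).trans ?_
    rw [← mul_sum]
    have := sum_two_pow_rpow_le (p := 1) le_rfl τ
    rw [Real.rpow_one (2 ^ τ)] at this
    calc _ ≤ 6 * (δ * d x y) * (2 * 2 ^ τ) := mul_le_mul_of_nonneg_left this h6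
      _ = _ := by ring

theorem exists_truncation {p : ℝ} (hp : 1 ≤ p) {X T : Type*} [Fintype X] [Fintype T]
    (f G : X → T → ℝ) (H : ℝ) (hH : 0 < H) (hG0 : ∀ x t, 0 ≤ G x t)
    (hG : ∀ x, ∑ t, G x t ^ p ≤ H ^ p)
    (hf : ∀ x y t, |f x t - f y t| ≤ lpn p (fun t => f x t - f y t) * (G x t + G y t))
    (V : ℕ) (hV : 1 ≤ V) :
    ∃ (R : ℕ) (Ψ : X → T × Fin R → ℝ) (lam : T × Fin R → ℝ), (∀ ω, 0 < lam ω) ∧
      (∀ x y, |lpn p (fun ω => Ψ x ω - Ψ y ω) - lpn p (fun t => f x t - f y t)|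
        ≤ 36 * H / V * lpn p (fun t => f x t - f y t)) ∧
      (∀ x, (∑ ω, if Ψ x ω = 0 then 0 else lam ω ^ p) ≤ 2 * (2 ^ (4 * V) * (3 * H)) ^ p) ∧
      ∀ x y ω, |Ψ x ω - Ψ y ω| ≤ 12 * lam ω * lpn p (fun t => f x t - f y t) := by
  classical
  have hp0 : 0 < p := by linarith
  have hV0 : (0 : ℝ) < V := by exact_mod_cast hV
  let d : X → X → ℝ := fun x y => lpn p (fun t => f x t - f y t)
  have hd0 : ∀ x y, 0 ≤ d x y := fun x y => lpn_nonneg _
  set N : ℝ := ((Fintype.card T : ℕ) : ℝ) with hN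
  have hN0 : 0 ≤ N := Nat.cast_nonneg _
  set δ := H / (N + 1) with hδ
  have hδ0 : 0 < δ := by positivity
  have hex : ∀ x t, ∃ k : ℕ, G x t ≤ δ * 2 ^ k := by
    intro x t
    obtain ⟨k, hk⟩ := pow_unbounded_of_one_lt (G x t / δ) (by norm_num : (1 : ℝ) < 2)
    rw [div_lt_iff₀ hδ0] at hk
    exact ⟨k, by linarith⟩
  let κ : X → T → ℕ := fun x t => Nat.find (hex x t)
  have hκ1 : ∀ x t, G x t ≤ δ * 2 ^ κ x t := fun x t => Nat.find_spec (hex x t)
  have hκ2 : ∀ x t, δ * 2 ^ κ x t ≤ δ + 2 * G x t := by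
    intro x t
    rcases h : κ x t with _ | k
    · simp only [pow_zero, mul_one]; linarith [hG0 x t]
    · have := Nat.find_min (hex x t) (m := k) (by change k < κ x t; omega)
      rw [pow_succ]
      push Not at this
      linarith
  have hκ3 : ∀ x, lpn p (fun t => δ * 2 ^ κ x t) ≤ 3 * H := by
    intro x
    have a1 : lpn p (fun t => δ * 2 ^ κ x t) ≤ lpn p (fun t => δ + 2 * G x t) :=
      lpn_mono hp0 fun t => by
        rw [abs_of_pos (by positivity), abs_of_nonneg (by linarith [hG0 x t])]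
        exact hκ2 x t
    have a2 := lpn_add_le hp (fun _ : T => δ) (fun t => 2 * G x t)
    have a3 : lpn p (fun _ : T => δ) ≤ H := by
      refine lpn_le_of_sum_le hp0 _ hH.le ?_
      rw [sum_const, card_univ, nsmul_eq_mul, ← hN, abs_of_pos hδ0, hδ,
        Real.div_rpow hH.le (by positivity), ← mul_div_assoc, div_le_iff₀ (by positivity)]
      have : N + 1 ≤ (N + 1) ^ p := by
        have := Real.rpow_le_rpow_of_exponent_le (x := N + 1) (by linarith) hp
        rwa [Real.rpow_one] at this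
      have : 0 ≤ H ^ p := by positivity
      nlinarith
    have a4 : lpn p (G x) ≤ H := lpn_le_of_sum_le hp0 _ hH.le (by
      simp_rw [abs_of_nonneg (hG0 x _)]; exact hG x)
    rw [lpn_mul hp0, abs_two] at a2
    linarith
  set M := (univ.sup fun w : X × T => κ w.1 w.2) + 1 with hM
  have hκM : ∀ t x, κ x t < M := fun t x =>
    Nat.lt_succ_of_le (le_sup (f := fun w : X × T => κ w.1 w.2) (mem_univ (x, t)))
  have hco := fun t => exists_coord hp d hd0
    (fun x => by simp only [d, sub_self]; exact lpn_zero hp0)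
    (fun x y => lpn_sub_comm _ _) (fun x y z => lpn_triangle hp _ _ _)
    (fun x => f x t) (fun x => κ x t) δ hδ0
    (fun x y => (hf x y t).trans (mul_le_mul_of_nonneg_left
      (add_le_add (hκ1 x t) (hκ1 y t)) (hd0 x y))) V M hV (hκM t)
  choose ψ hψ1 hψ2 hψ3 using hco
  refine ⟨M + 4 * V, fun x ω => ψ ω.1 x ω.2, fun ω => δ * 2 ^ (ω.2 : ℕ),
    fun ω => by positivity, ?_, ?_, fun x y ω => hψ3 ω.1 x y ω.2⟩
  · intro x y
    choose w hw1 hw2 using fun t => hψ1 t x y
    have e1 : lpn p (fun t => f x t - f y t)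
        = lpn p (fun ω : T × Fin (M + 4 * V) => w ω.1 ω.2) := by
      unfold lpn
      rw [Fintype.sum_prod_type]
      simp_rw [hw1]
    have e2 := abs_lpn_sub_le hp (fun ω : T × Fin (M + 4 * V) => ψ ω.1 x ω.2 - ψ ω.1 y ω.2)
      (fun ω : T × Fin (M + 4 * V) => w ω.1 ω.2)
    rw [← e1] at e2
    refine e2.trans ?_
    have hc : 0 ≤ 6 / V * d x y := mul_nonneg (by positivity) (hd0 x y)
    have e3 : lpn p (fun ω : T × Fin (M + 4 * V) => ψ ω.1 x ω.2 - ψ ω.1 y ω.2 - w ω.1 ω.2)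
        ≤ lpn p (fun t => 6 / V * d x y * (δ * 2 ^ κ x t + δ * 2 ^ κ y t)) := by
      refine lpn_le_of_sum_le hp0 _ (lpn_nonneg _) ?_
      rw [lpn_rpow hp0, Fintype.sum_prod_type]
      refine sum_le_sum fun t _ => ?_
      rw [abs_of_nonneg (mul_nonneg hc (by positivity))]
      exact hw2 t
    refine e3.trans ?_
    rw [lpn_mul hp0, abs_of_nonneg hc]
    have e4 := lpn_add_le hp (fun t => δ * 2 ^ κ x t) (fun t => δ * 2 ^ κ y t)
    calc _ ≤ 6 / V * d x y * (6 * H) :=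
          mul_le_mul_of_nonneg_left (by linarith [hκ3 x, hκ3 y]) hc
      _ = _ := by simp only [d]; ring
  · intro x
    rw [Fintype.sum_prod_type]
    have h1 : ∀ t, (∑ τ : Fin (M + 4 * V), if ψ t x τ = 0 then 0 else (δ * 2 ^ (τ : ℕ)) ^ p)
        ≤ 2 * (2 ^ (4 * V)) ^ p * |δ * 2 ^ κ x t| ^ p := by
      intro t
      rw [Fin.sum_univ_eq_sum_range (fun τ => if ψ t x τ = 0 then 0 else (δ * 2 ^ τ) ^ p)]
      have a1 : (∑ τ ∈ range (M + 4 * V), if ψ t x τ = 0 then 0 else (δ * 2 ^ τ) ^ p)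
          ≤ ∑ τ ∈ range (M + 4 * V),
            if τ ≤ κ x t + 4 * V then δ ^ p * ((2 : ℝ) ^ τ) ^ p else 0 := by
        refine sum_le_sum fun τ _ => ?_
        by_cases h0 : ψ t x τ = 0
        · rw [if_pos h0]; split_ifs <;> positivity
        · rw [if_neg h0, if_pos (hψ2 t x τ h0), Real.mul_rpow hδ0.le (by positivity)]
      refine a1.trans ((sum_ite_le_range (fun τ => δ ^ p * ((2 : ℝ) ^ τ) ^ p)
        (fun τ => by positivity) _ _).trans ?_)
      rw [← mul_sum, abs_of_pos (by positivity), Real.mul_rpow hδ0.le (by positivity)]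
      have a2 := sum_two_pow_rpow_le hp (κ x t + 4 * V)
      rw [pow_add, Real.mul_rpow (by positivity) (by positivity)] at a2
      calc _ ≤ δ ^ p * (2 * ((2 ^ κ x t) ^ p * (2 ^ (4 * V)) ^ p)) :=
            mul_le_mul_of_nonneg_left a2 (by positivity)
        _ = _ := by ring
    refine (sum_le_sum fun t _ => h1 t).trans ?_
    rw [← mul_sum, ← lpn_rpow hp0, Real.mul_rpow (by positivity) (by positivity), mul_assoc]
    have := Real.rpow_le_rpow (lpn_nonneg _) (hκ3 x) hp0.le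
    gcongr

end Vale.Agent.P249
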