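import Vale.Agent.P249.Gradient
import Vale.Agent.P249.Truncate
import Vale.Agent.P249.Hash

/-! Subpolynomial dimension reduction for finite subsets of finite-dimensional `ℓ_p`. -/

open Finset

namespace Vale.Agent.P249

/-- `g` is bounded by `exp (C * Γ n)` for some constant `C`. -/
def Sm (Γ g : ℕ → ℝ) : Prop := ∃ C : ℝ, 0 ≤ C ∧ ∀ n, g n ≤ Real.exp (C * Γ n)

section sm
variable {Γ g h : ℕ → ℝ}

lemma Sm.mono (hh : Sm Γ h) (hgh : ∀ n, g n ≤ h n) : Sm Γ g := by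
  obtain ⟨C, hC, H⟩ := hh
  exact ⟨C, hC, fun n => (hgh n).trans (H n)⟩

lemma Sm.const (hΓ : ∀ n, 1 ≤ Γ n) (c : ℝ) : Sm Γ fun _ => c := by
  refine ⟨|c|, abs_nonneg c, fun n => ?_⟩
  have h1 := Real.add_one_le_exp (|c| * Γ n)
  have h2 := le_abs_self c
  nlinarith [abs_nonneg c, hΓ n]

lemma Sm.mul (hg : Sm Γ g) (hh : Sm Γ h) (h0 : ∀ n, 0 ≤ h n) : Sm Γ fun n => g n * h n := by
  obtain ⟨C, hC, H⟩ := hg
  obtain ⟨C', hC', H'⟩ := hh
  refine ⟨C + C', by linarith, fun n => ?_⟩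
  rw [add_mul, Real.exp_add]
  exact mul_le_mul (H n) (H' n) (h0 n) (Real.exp_pos _).le

lemma Sm.add (hΓ : ∀ n, 1 ≤ Γ n) (hg : Sm Γ g) (hh : Sm Γ h) : Sm Γ fun n => g n + h n := by
  obtain ⟨C, hC, H⟩ := hg
  obtain ⟨C', hC', H'⟩ := hh
  refine ⟨C + C' + 1, by linarith, fun n => ?_⟩
  have hΓ0 : 0 ≤ Γ n := by linarith [hΓ n]
  have h1 : Real.exp (C * Γ n) ≤ Real.exp ((C + C') * Γ n) :=
    Real.exp_le_exp.2 (by nlinarith)
  have h2 : Real.exp (C' * Γ n) ≤ Real.exp ((C + C') * Γ n) :=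
    Real.exp_le_exp.2 (by nlinarith)
  have h3 : 2 ≤ Real.exp (Γ n) := by linarith [Real.add_one_le_exp (Γ n), hΓ n]
  rw [add_mul (C + C'), Real.exp_add, one_mul]
  have := Real.exp_pos ((C + C') * Γ n)
  nlinarith [H n, H' n]

lemma Sm.rpow (hg : Sm Γ g) (h0 : ∀ n, 0 ≤ g n) {p : ℝ} (hp : 0 ≤ p) :
    Sm Γ fun n => g n ^ p := by
  obtain ⟨C, hC, H⟩ := hg
  refine ⟨C * p, by positivity, fun n => ?_⟩
  refine (Real.rpow_le_rpow (h0 n) (H n) hp).trans (le_of_eq ?_)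
  rw [← Real.exp_mul]; ring_nf

lemma Sm.self : Sm Γ Γ :=
  ⟨1, zero_le_one, fun n => by linarith [Real.add_one_le_exp (1 * Γ n)]⟩

lemma Sm.ceil (hΓ : ∀ n, 1 ≤ Γ n) (hg : Sm Γ g) (h0 : ∀ n, 0 ≤ g n) :
    Sm Γ fun n => (⌈g n⌉₊ : ℝ) :=
  (hg.add hΓ (Sm.const hΓ 1)).mono fun n => (Nat.ceil_lt_add_one (h0 n)).le

lemma Sm.two_pow {V : ℕ → ℕ} {c : ℝ} (hc : 0 ≤ c) (hV : ∀ n, (V n : ℝ) ≤ c * Γ n) :
    Sm Γ fun n => (2 : ℝ) ^ V n := by
  refine ⟨c, hc, fun n => ?_⟩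
  have h1 : (2 : ℝ) ≤ Real.exp 1 := by linarith [Real.add_one_le_exp 1]
  calc (2 : ℝ) ^ V n ≤ Real.exp 1 ^ V n := pow_le_pow_left₀ (by norm_num) h1 _
    _ = Real.exp (V n) := by rw [← Real.exp_nat_mul, mul_one]
    _ ≤ _ := Real.exp_le_exp.2 (hV n)

end sm

universe u v

theorem finite_embed {p : ℝ} (hp : 1 ≤ p) {ε : ℝ} (hε0 : 0 < ε) (hε : ε ≤ 1) :
    ∃ dim : ℕ → ℕ, Sm (fun n => (1 + Real.log n) ^ max (1 / p) (1 / 2)) (fun n => dim n) ∧
      ∀ (X : Type u) (T : Type v) [Fintype X] [Fintype T] (f : X → T → ℝ),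
        ∃ g : X → Fin (dim (Fintype.card X)) → ℝ, ∀ x y,
          (1 - ε) * lpn p (fun t => f x t - f y t) ≤ lpn p (fun i => g x i - g y i) ∧
          lpn p (fun i => g x i - g y i) ≤ (1 + ε) * lpn p (fun t => f x t - f y t) := by
  have hp0 : 0 < p := by linarith
  obtain ⟨CA, hCA, hgrad⟩ := exists_gradient.{u, v} hp
  obtain ⟨CH, hCH, hhash⟩ := exists_hash.{u, v} hp
  let L : ℕ → ℝ := fun n => 1 + Real.log n
  have hL : ∀ n, 1 ≤ L n := fun n => by
    have := Real.log_natCast_nonneg n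
    simp only [L]; linarith
  let Γ : ℕ → ℝ := fun n => L n ^ max (1 / p) (1 / 2)
  have hΓ : ∀ n, 1 ≤ Γ n := fun n => Real.one_le_rpow (hL n) (le_max_of_le_right (by norm_num))
  have hLΓ : ∀ n, L n ≤ Γ n * Γ n := fun n => by
    have h1 : L n ^ (1 / 2 : ℝ) ≤ Γ n := Real.rpow_le_rpow_of_exponent_le (hL n) (le_max_right _ _)
    have h2 : L n ^ (1 / 2 : ℝ) * L n ^ (1 / 2 : ℝ) = L n := by
      rw [← Real.rpow_add (by linarith [hL n])]; norm_num
    have h3 : 0 ≤ L n ^ (1 / 2 : ℝ) := Real.rpow_nonneg (by linarith [hL n]) _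
    rw [← h2]
    exact mul_le_mul h1 h1 h3 (by linarith [hΓ n])
  have sL : Sm Γ L := (Sm.self.mul Sm.self fun n => by linarith [hΓ n]).mono hLΓ
  set ε2 := ε / (3 * CH) with hε2
  have hε20 : 0 < ε2 := by positivity
  have hε21 : ε2 ≤ 1 / 2 := by
    rw [hε2, div_le_iff₀ (by positivity)]; linarith
  have hε22 : CH * ε2 = ε / 3 := by rw [hε2]; field_simp
  let H : ℕ → ℝ := fun n => CA * Γ n
  have hH : ∀ n, 0 < H n := fun n => mul_pos (by linarith) (by linarith [hΓ n])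
  let V : ℕ → ℕ := fun n => ⌈108 * H n / ε⌉₊
  have hV1 : ∀ n, 108 * H n / ε ≤ V n := fun n => Nat.le_ceil _
  have hV0 : ∀ n, 1 ≤ V n := fun n => Nat.ceil_pos.2 (by have := hH n; positivity)
  have hV2 : ∀ n, ((4 * V n : ℕ) : ℝ) ≤ (4 * (108 * CA / ε + 1)) * Γ n := fun n => by
    have h1 : (V n : ℝ) < 108 * H n / ε + 1 := Nat.ceil_lt_add_one (by have := hH n; positivity)
    have h2 : 108 * H n / ε = 108 * CA / ε * Γ n := by simp only [H]; ring
    push_cast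
    nlinarith [hΓ n]
  let S : ℕ → ℝ := fun n => 2 * (2 ^ (4 * V n) * (3 * H n)) ^ p
  have hS : ∀ n, 0 < S n := fun n => by have := hH n; simp only [S]; positivity
  have sH : Sm Γ H := (Sm.const hΓ CA).mul Sm.self fun n => by linarith [hΓ n]
  have sS : Sm Γ S := (Sm.const hΓ 2).mul
    (((Sm.two_pow (by positivity) hV2).mul ((Sm.const hΓ 3).mul sH fun n => (hH n).le)
      fun n => by have := hH n; positivity).rpow (fun n => by have := hH n; positivity) hp0.le)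
    fun n => by have := hH n; positivity
  let K1 : ℕ → ℝ := fun n => 24 ^ p / ε2 * S n + 1
  have hK1 : ∀ n, 1 ≤ K1 n := fun n => by
    have := hS n
    have : 0 ≤ 24 ^ p / ε2 * S n := by positivity
    simp only [K1]; linarith
  have sK1 : Sm Γ K1 := ((Sm.const hΓ _).mul sS fun n => (hS n).le).add hΓ (Sm.const hΓ 1)
  let N : ℕ → ℕ := fun n => ⌈4 * L n⌉₊ + ⌈3 / ε2 * K1 n⌉₊
  have sN : Sm Γ fun n => (N n : ℝ) :=
    ((((Sm.const hΓ 4).mul sL fun n => by linarith [hL n]).ceil hΓ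
      fun n => by linarith [hL n]).add hΓ
      (((Sm.const hΓ (3 / ε2)).mul sK1 fun n => by linarith [hK1 n]).ceil hΓ
      fun n => by have := hK1 n; positivity)).mono fun n => by simp [N]
  have hN1 : ∀ n, 1 ≤ N n := fun n =>
    le_add_right (Nat.ceil_pos.2 (by linarith [hL n]))
  have hN2 : ∀ n : ℕ, 3 * (n : ℝ) ^ 2 * K1 n / ε2 ≤ 2 ^ N n := by
    intro n
    have h1 : (n : ℝ) ^ 2 ≤ 2 ^ ⌈4 * L n⌉₊ := by
      rcases Nat.eq_zero_or_pos n with rfl | hn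
      · simp
      have hn' : (0 : ℝ) < n := by exact_mod_cast hn
      have a1 : (n : ℝ) ^ 2 = Real.exp (2 * Real.log n) := by
        rw [show (2 : ℝ) * Real.log n = ((2 : ℕ) : ℝ) * Real.log n by norm_num, Real.exp_nat_mul,
          Real.exp_log hn']
      have a2 : (2 : ℝ) ^ ⌈4 * L n⌉₊ = Real.exp (⌈4 * L n⌉₊ * Real.log 2) := by
        rw [Real.exp_nat_mul, Real.exp_log (by norm_num)]
      rw [a1, a2]
      refine Real.exp_le_exp.2 ?_
      have a3 : 4 * L n ≤ ⌈4 * L n⌉₊ := Nat.le_ceil _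
      have a4 := Real.log_two_gt_d9
      have a5 := Real.log_natCast_nonneg n
      have a6 : L n = 1 + Real.log n := rfl
      nlinarith
    have h2 : 3 / ε2 * K1 n ≤ 2 ^ ⌈3 / ε2 * K1 n⌉₊ := by
      refine (Nat.le_ceil _).trans ?_
      exact_mod_cast (Nat.lt_two_pow_self).le
    have h3 : 0 ≤ 3 / ε2 * K1 n := by have := hK1 n; positivity
    calc 3 * (n : ℝ) ^ 2 * K1 n / ε2 = (n : ℝ) ^ 2 * (3 / ε2 * K1 n) := by ring
      _ ≤ 2 ^ ⌈4 * L n⌉₊ * 2 ^ ⌈3 / ε2 * K1 n⌉₊ := mul_le_mul h1 h2 h3 (by positivity)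
      _ = 2 ^ N n := by rw [← pow_add]
  let A : ℕ → ℝ := fun n => (N n : ℝ) ^ p * K1 n
  have hA : ∀ n, 0 ≤ A n := fun n => mul_nonneg (by positivity) (by linarith [hK1 n])
  have sA : Sm Γ A := (sN.rpow (fun n => by positivity) hp0.le).mul sK1 fun n => by linarith [hK1 n]
  let dr : ℕ → ℝ := fun n => 8 / ε2 ^ 2 * (A n * A n * L n)
  have hdr : ∀ n, 0 ≤ dr n := fun n =>
    mul_nonneg (by positivity) (mul_nonneg (mul_nonneg (hA n) (hA n)) (by linarith [hL n]))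
  have sdr : Sm Γ dr := (Sm.const hΓ _).mul ((sA.mul sA hA).mul sL fun n => by linarith [hL n])
    fun n => mul_nonneg (mul_nonneg (hA n) (hA n)) (by linarith [hL n])
  have hlog : ∀ n : ℕ, Real.log (2 * (n : ℝ) ^ 2) ≤ 2 * L n := by
    intro n
    rcases Nat.eq_zero_or_pos n with rfl | hn
    · have := hL 0
      simp only [Nat.cast_zero, ne_eq, OfNat.ofNat_ne_zero, not_false_eq_true, zero_pow, mul_zero,
        Real.log_zero]
      linarith
    have hn' : (0 : ℝ) < n := by exact_mod_cast hn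
    rw [Real.log_mul (by norm_num) (by positivity), Real.log_pow]
    have a4 := Real.log_two_lt_d9
    have a6 : L n = 1 + Real.log n := rfl
    push_cast
    linarith
  refine ⟨fun n => ⌈dr n⌉₊ + 1,
    ((sdr.ceil hΓ hdr).add hΓ (Sm.const hΓ 1)).mono fun n => by simp, ?_⟩
  intro X T _ _ f
  set n := Fintype.card X with hn
  obtain ⟨G, hG0, hG1, hG2⟩ := hgrad X T f (L n) (hL n) (by simp only [L]; linarith)
  have hG1' : ∀ x, ∑ t, G x t ^ p ≤ H n ^ p := by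
    intro x
    refine (hG1 x).trans ?_
    simp only [H, Γ]
    rw [Real.mul_rpow (by linarith) (Real.rpow_nonneg (by linarith [hL n]) _),
      ← Real.rpow_mul (by linarith [hL n]), max_mul_of_nonneg _ _ hp0.le,
      one_div_mul_cancel hp0.ne', show 1 / 2 * p = p / 2 by ring]
    have : CA ≤ CA ^ p := by
      have := Real.rpow_le_rpow_of_exponent_le hCA hp
      rwa [Real.rpow_one] at this
    exact mul_le_mul_of_nonneg_right this (Real.rpow_nonneg (by linarith [hL n]) _)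
  obtain ⟨R, Ψ, lam, hlam, hΨ1, hΨ2, hΨ3⟩ :=
    exists_truncation hp f G (H n) (hH n) hG0 hG1' hG2 (V n) (hV0 n)
  have hV0' : (0 : ℝ) < V n := by exact_mod_cast hV0 n
  have hrat : 36 * H n / V n ≤ ε / 3 := by
    have := hV1 n
    rw [div_le_iff₀ hε0] at this
    rw [div_le_iff₀ hV0']
    linarith
  have hΨ1' : ∀ x y, (1 - ε / 3) * lpn p (fun t => f x t - f y t)
        ≤ lpn p (fun ω => Ψ x ω - Ψ y ω) ∧
      lpn p (fun ω => Ψ x ω - Ψ y ω) ≤ (1 + ε / 3) * lpn p (fun t => f x t - f y t) := by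
    intro x y
    have h1 := (hΨ1 x y).trans (mul_le_mul_of_nonneg_right hrat (lpn_nonneg _))
    rw [abs_le] at h1
    constructor <;> linarith [h1.1, h1.2]
  obtain ⟨g, hg⟩ := hhash Ψ lam (S n) 24 (K1 n) ε2 (N n) (⌈dr n⌉₊ + 1) hlam (hS n) (by norm_num)
    hε20 hε21 hΨ2
    (fun x y ω => (hΨ3 x y ω).trans (by
      have h1 := (hΨ1' x y).1
      have h2 := lpn_nonneg (p := p) fun t => f x t - f y t
      have h3 : lpn p (fun t => f x t - f y t) ≤ 2 * lpn p (fun ω => Ψ x ω - Ψ y ω) := by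
        nlinarith
      nlinarith [hlam ω]))
    (by simp only [K1]; linarith [mul_div_right_comm ((24 : ℝ) ^ p) (S n) ε2]) (hK1 n) (hN1 n)
    (hN2 n) (Nat.succ_pos _) (by
      have h1 : dr n ≤ ⌈dr n⌉₊ := Nat.le_ceil _
      have h2 : 4 * A n ^ 2 * Real.log (2 * (n : ℝ) ^ 2) / ε2 ^ 2 ≤ dr n := by
        have := mul_le_mul_of_nonneg_left (hlog n) (by positivity : 0 ≤ 4 * A n ^ 2 / ε2 ^ 2)
        calc _ = 4 * A n ^ 2 / ε2 ^ 2 * Real.log (2 * (n : ℝ) ^ 2) := by ring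
          _ ≤ 4 * A n ^ 2 / ε2 ^ 2 * (2 * L n) := this
          _ = dr n := by simp only [dr]; ring
      push_cast
      exact h2.trans (by linarith))
  refine ⟨g, fun x y => ?_⟩
  obtain ⟨h1, h2⟩ := hg x y
  obtain ⟨h3, h4⟩ := hΨ1' x y
  rw [hε22, ← lpn_rpow hp0 (fun ω => Ψ x ω - Ψ y ω)] at h1 h2
  have h5 := lpn_nonneg (p := p) fun t => f x t - f y t
  have h6 := lpn_nonneg (p := p) fun ω => Ψ x ω - Ψ y ω
  have h7 : (1 - ε / 3) * lpn p (fun ω => Ψ x ω - Ψ y ω) ≤ lpn p (fun i => g x i - g y i) := by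
    refine le_lpn_of_le_sum hp0 _ (mul_nonneg (by linarith) h6) (le_trans ?_ h1)
    rw [Real.mul_rpow (by linarith) h6]
    refine mul_le_mul_of_nonneg_right ?_ (Real.rpow_nonneg h6 _)
    have := Real.rpow_le_rpow_of_exponent_ge (x := 1 - ε / 3) (by linarith) (by linarith) hp
    rwa [Real.rpow_one] at this
  have h8 : lpn p (fun i => g x i - g y i) ≤ (1 + ε / 3) * lpn p (fun ω => Ψ x ω - Ψ y ω) := by
    refine lpn_le_of_sum_le hp0 _ (mul_nonneg (by linarith) h6) (h2.trans ?_)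
    rw [Real.mul_rpow (by linarith) h6]
    refine mul_le_mul_of_nonneg_right ?_ (Real.rpow_nonneg h6 _)
    have := Real.rpow_le_rpow_of_exponent_le (x := 1 + ε / 3) (by linarith) hp
    rwa [Real.rpow_one] at this
  constructor
  · have a1 := mul_le_mul_of_nonneg_left h3 (by linarith : 0 ≤ 1 - ε / 3)
    have a2 : (1 - ε) * lpn p (fun t => f x t - f y t)
        ≤ (1 - ε / 3) * ((1 - ε / 3) * lpn p (fun t => f x t - f y t)) := by
      rw [← mul_assoc]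
      exact mul_le_mul_of_nonneg_right (by nlinarith) h5
    linarith
  · have a1 := mul_le_mul_of_nonneg_left h4 (by linarith : 0 ≤ 1 + ε / 3)
    have a2 : (1 + ε / 3) * ((1 + ε / 3) * lpn p (fun t => f x t - f y t))
        ≤ (1 + ε) * lpn p (fun t => f x t - f y t) := by
      rw [← mul_assoc]
      exact mul_le_mul_of_nonneg_right (by nlinarith) h5
    linarith

end Vale.Agent.P249
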