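import Vale.Agent.P249.Process
import Mathlib.Analysis.SpecialFunctions.Sqrt
import Mathlib.Algebra.Order.Floor.Semiring

/-! Pointwise gradients with small `ℓ_p` norm for finite subsets of `ℓ_p`. -/

open Finset

namespace Vale.Agent.P249

lemma sqrt_mul_sqrt_le {s t : ℝ} (hs0 : 0 ≤ s) (hs1 : s ≤ 1) (ht0 : 0 ≤ t) (ht1 : t ≤ 1) :
    √s * √t ≤ (s + t) / 2 - (s - t) ^ 2 / 8 := by
  have a0 := Real.sqrt_nonneg s
  have b0 := Real.sqrt_nonneg t
  have a1 : √s ≤ 1 := Real.sqrt_le_one.2 hs1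
  have b1 : √t ≤ 1 := Real.sqrt_le_one.2 ht1
  have e1 := Real.sq_sqrt hs0
  have e2 := Real.sq_sqrt ht0
  set a := √s
  set b := √t
  rw [← e1, ← e2]
  have h1 : (a + b) ^ 2 ≤ 4 := by nlinarith
  have h2 : (a ^ 2 - b ^ 2) ^ 2 = (a - b) ^ 2 * (a + b) ^ 2 := by ring
  have h3 := mul_le_mul_of_nonneg_left h1 (sq_nonneg (a - b))
  nlinarith

lemma two_point_hel {s t N : ℝ} (hN : 0 < N) (hs0 : 0 ≤ s) (hs1 : s ≤ 1) (ht0 : 0 ≤ t)
    (ht1 : t ≤ 1) :
    √(s / N) * √(t / N) + √((1 - s) / N) * √((1 - t) / N) ≤ (1 - (s - t) ^ 2 / 4) / N := by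
  have e : ∀ u w : ℝ, 0 ≤ u → 0 ≤ w → √(u / N) * √(w / N) = √u * √w / N := by
    intro u w hu hw
    rw [Real.sqrt_div hu, Real.sqrt_div hw, div_mul_div_comm, Real.mul_self_sqrt hN.le]
  rw [e s t hs0 ht0, e (1 - s) (1 - t) (by linarith) (by linarith), ← add_div]
  have h1 := sqrt_mul_sqrt_le hs0 hs1 ht0 ht1
  have h2 := sqrt_mul_sqrt_le (s := 1 - s) (t := 1 - t) (by linarith) (by linarith) (by linarith)
    (by linarith)
  gcongr
  nlinarith

lemma sq_sqrt_log_le {u w N : ℝ} (hN : 0 < N) (hu : 0 < u) (hw : 0 < w) :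
    √(u / N) ^ 2 * Real.log (√(u / N) / √(w / N)) ≤ (u * (u / w - 1) / 2) / N := by
  rw [Real.sq_sqrt (by positivity), ← Real.sqrt_div (by positivity),
    Real.log_sqrt (by positivity)]
  have e : u / N / (w / N) = u / w := by field_simp
  rw [e]
  have h := Real.log_le_sub_one_of_pos (x := u / w) (by positivity)
  have : u / N * (Real.log (u / w) / 2) = (u * Real.log (u / w) / 2) / N := by ring
  rw [this]
  gcongr

lemma two_point_kl {s t N : ℝ} (hN : 0 < N) (hs0 : 1 / 4 ≤ s) (hs1 : s ≤ 3 / 4) (ht0 : 1 / 4 ≤ t)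
    (ht1 : t ≤ 3 / 4) :
    √(s / N) ^ 2 * Real.log (√(s / N) / √(t / N))
      + √((1 - s) / N) ^ 2 * Real.log (√((1 - s) / N) / √((1 - t) / N))
      ≤ 3 * (s - t) ^ 2 / N := by
  have h1 := sq_sqrt_log_le (u := s) (w := t) hN (by linarith) (by linarith)
  have h2 := sq_sqrt_log_le (u := 1 - s) (w := 1 - t) hN (by linarith) (by linarith)
  refine (add_le_add h1 h2).trans ?_
  rw [← add_div]
  gcongr
  have ht : 0 < t := by linarith
  have ht' : 0 < 1 - t := by linarith
  have e : s * (s / t - 1) / 2 + (1 - s) * ((1 - s) / (1 - t) - 1) / 2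
      = (s - t) ^ 2 / (2 * (t * (1 - t))) := by
    field_simp; ring
  rw [e, div_le_iff₀ (by positivity)]
  have : 3 / 16 ≤ t * (1 - t) := by nlinarith
  nlinarith [sq_nonneg (s - t)]

universe u v

theorem exists_weights {p : ℝ} (hp : 1 ≤ p) : ∃ c1 c2 : ℝ, 0 < c1 ∧ 0 < c2 ∧
    ∀ (X : Type u) (T : Type v) [Fintype X] [Fintype T] [Nonempty T] (f : X → T → ℝ) (L : ℝ),
      1 ≤ L → Real.log (Fintype.card X) ≤ L →
      ∃ m : X → X → ℝ, (∀ x z, 0 ≤ m x z) ∧
        (∀ x, ∑ z, m x z * ∑ t, |f x t - f z t| ^ p ≤ c1 * L) ∧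
        ∀ x y, 0 < ∑ t, |f x t - f y t| ^ p →
          c2 ≤ L ^ (max 1 (p / 2) - 1) * (∑ t, |f x t - f y t| ^ p)
            * ∑ z, min (m x z) (m y z) := by
  have hp0 : 0 < p := by linarith
  obtain ⟨cL, hcL, hlow⟩ := feature_lower hp0
  obtain ⟨CU, hCU, hupp⟩ := feature_upper hp
  set β := 3 * CU + 12 * CU / cL with hβ
  refine ⟨4 / cL, Real.exp (-β) ^ 2 / 2, by positivity, by positivity, ?_⟩
  intro X T _ _ _ f L hL hlog
  have hL0 : 0 < L := by linarith
  set N : ℝ := ((Fintype.card T : ℕ) : ℝ) with hNdef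
  have hN : 0 < N := by rw [hNdef]; exact_mod_cast Fintype.card_pos
  let F : X → X → T → ℝ := fun c z t => |f z t - f c t| ^ (p / 2)
  have hF0 : ∀ c z t, 0 ≤ F c z t := fun c z t => Real.rpow_nonneg (abs_nonneg _) _
  set M := ∑ w : X × X × T, F w.1 w.2.1 w.2.2 with hM
  have hFM : ∀ c z t, F c z t ≤ M := fun c z t =>
    single_le_sum (f := fun w : X × X × T => F w.1 w.2.1 w.2.2) (fun w _ => hF0 _ _ _)
      (mem_univ (c, z, t))
  have hM0 : 0 ≤ M := sum_nonneg fun w _ => hF0 _ _ _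
  set η := 1 / (2 * (M + 1)) with hη
  have hη0 : 0 < η := by positivity
  let s : X → T → X → ℝ := fun c t z => 1 / 4 + η * F c z t
  have hs0 : ∀ c t z, 1 / 4 ≤ s c t z := fun c t z => by
    have := mul_nonneg hη0.le (hF0 c z t)
    simp only [s]; linarith
  have hs1 : ∀ c t z, s c t z ≤ 3 / 4 := fun c t z => by
    have h1 : η * F c z t ≤ η * (M + 1) :=
      mul_le_mul_of_nonneg_left (by linarith [hFM c z t]) hη0.le
    have h2 : η * (M + 1) = 1 / 2 := by rw [hη]; field_simp
    simp only [s]; linarith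
  let a : X → T × Bool → X → ℝ := fun c o z =>
    √((if o.2 then s c o.1 z else 1 - s c o.1 z) / N)
  have ha : ∀ c o z, 0 < a c o z := by
    intro c o z
    refine Real.sqrt_pos.2 (div_pos ?_ hN)
    split_ifs
    · linarith [hs0 c o.1 z]
    · linarith [hs1 c o.1 z]
  have hsumO : ∀ g : T × Bool → ℝ, ∑ o, g o = ∑ t, (g (t, true) + g (t, false)) := by
    intro g
    rw [Fintype.sum_prod_type]
    exact sum_congr rfl fun t _ => Fintype.sum_bool _
  have hn : ∀ c z, ∑ o, a c o z ^ 2 = 1 := by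
    intro c z
    rw [hsumO]
    have : ∀ t, a c (t, true) z ^ 2 + a c (t, false) z ^ 2 = 1 / N := by
      intro t
      simp only [a, if_true, Bool.false_eq_true, if_false]
      rw [Real.sq_sqrt (div_nonneg (by linarith [hs0 c t z]) hN.le),
        Real.sq_sqrt (div_nonneg (by linarith [hs1 c t z]) hN.le)]
      ring
    simp_rw [this]
    rw [sum_const, card_univ, nsmul_eq_mul, ← hNdef]
    field_simp
  set h := η ^ 2 / N with hh
  have hh0 : 0 < h := by positivity
  let P : X → X → ℝ := fun x z => ∑ t, |f x t - f z t| ^ p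
  have hP : ∀ x z, 0 ≤ P x z := fun x z => sum_abs_rpow_nonneg _
  have hhel : ∀ c x z, h / 4 * ∑ t, (F c x t - F c z t) ^ 2 ≤ 1 - ∑ o, a c o x * a c o z := by
    intro c x z
    rw [hsumO]
    have h1 : ∀ t, a c (t, true) x * a c (t, true) z + a c (t, false) x * a c (t, false) z
        ≤ 1 / N - h / 4 * (F c x t - F c z t) ^ 2 := by
      intro t
      simp only [a, if_true, Bool.false_eq_true, if_false]
      refine (two_point_hel hN (by linarith [hs0 c t x]) (by linarith [hs1 c t x])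
        (by linarith [hs0 c t z]) (by linarith [hs1 c t z])).trans (le_of_eq ?_)
      simp only [s, hh]
      field_simp
      ring
    have h2 := sum_le_sum fun t (_ : t ∈ univ) => h1 t
    rw [sum_sub_distrib, sum_const, card_univ, nsmul_eq_mul, ← hNdef, ← mul_sum,
      mul_one_div_cancel hN.ne'] at h2
    linarith
  set α := L ^ (max 1 (p / 2) - 1) with hα
  have hα0 : 0 < α := Real.rpow_pos_of_pos hL0 _
  set κ := h * cL / 4 with hκ
  have hκ0 : 0 < κ := by positivity
  let u : X → X → ℝ := fun x y => 3 * h * CU * α * P x y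
  have hLow : ∀ x z c, κ * (P x z + P x c)
      ≤ (1 - ∑ o, a c o x * a c o z) + (1 - ∑ o, a z o x * a z o c) := by
    intro x z c
    refine le_trans ?_ (add_le_add (hhel c x z) (hhel z x c))
    rw [← mul_add, ← sum_add_distrib, ← sum_add_distrib, hκ,
      show h * cL / 4 * ∑ t, (|f x t - f z t| ^ p + |f x t - f c t| ^ p)
        = h / 4 * ∑ t, cL * (|f x t - f z t| ^ p + |f x t - f c t| ^ p) by
          rw [← mul_sum]; ring]
    refine mul_le_mul_of_nonneg_left (sum_le_sum fun t _ => ?_) (by positivity)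
    have := hlow (f x t - f z t) (f x t - f c t)
    have e1 : f x t - f z t - (f x t - f c t) = f c t - f z t := by ring
    rw [e1] at this
    simp only [F]
    rw [abs_sub_comm (f z t) (f c t)]
    exact this
  have hUp : ∀ c x y, ∑ o, a c o x ^ 2 * Real.log (a c o x / a c o y)
      ≤ u x y + 3 * h * CU / L * P x c := by
    intro c x y
    rw [hsumO]
    have h1 : ∀ t, a c (t, true) x ^ 2 * Real.log (a c (t, true) x / a c (t, true) y)
        + a c (t, false) x ^ 2 * Real.log (a c (t, false) x / a c (t, false) y)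
        ≤ 3 * h * CU * α * |f x t - f y t| ^ p + 3 * h * CU / L * |f x t - f c t| ^ p := by
      intro t
      simp only [a, if_true, Bool.false_eq_true, if_false]
      refine (two_point_kl hN (hs0 c t x) (hs1 c t x) (hs0 c t y) (hs1 c t y)).trans ?_
      have e : 3 * (s c t x - s c t y) ^ 2 / N = 3 * h * (F c x t - F c y t) ^ 2 := by
        simp only [s, hh]; field_simp; ring
      rw [e]
      have h2 := hupp L hL (f x t - f c t) (f y t - f c t)
      have e1 : f x t - f c t - (f y t - f c t) = f x t - f y t := by ring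
      rw [e1] at h2
      have h3 := mul_le_mul_of_nonneg_left h2 (by positivity : 0 ≤ 3 * h)
      refine h3.trans (le_of_eq ?_)
      ring
    refine (sum_le_sum fun t _ => h1 t).trans (le_of_eq ?_)
    rw [sum_add_distrib, ← mul_sum, ← mul_sum]
  obtain ⟨m, hm0, hm1, hm2⟩ := process a ha hn P hP κ (3 * h * CU / L) u hκ0 (by positivity)
    (fun x y => mul_nonneg (by positivity) (hP x y)) hLow hUp
    (univ.sup fun w : X × X => ⌈1 / (h * α * P w.1 w.2)⌉₊)
  refine ⟨fun x z => h * m x z, fun x z => mul_nonneg hh0.le (hm0 x z), fun x => ?_, ?_⟩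
  · have h1 : ∑ z, m x z * P x z ≤ L / κ := by
      rw [le_div_iff₀ hκ0]; linarith [hm1 x]
    have e : ∑ z, h * m x z * ∑ t, |f x t - f z t| ^ p = h * ∑ z, m x z * P x z := by
      rw [mul_sum]; exact sum_congr rfl fun z _ => by simp only [P]; ring
    rw [e]
    calc h * ∑ z, m x z * P x z ≤ h * (L / κ) := mul_le_mul_of_nonneg_left h1 hh0.le
      _ = 4 / cL * L := by rw [hκ]; field_simp
  · intro x y h0
    change 0 < P x y at h0
    have hj1 : 1 / (h * α * P x y) ≤ ⌈1 / (h * α * P x y)⌉₊ := Nat.le_ceil _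
    have hj2 : (⌈1 / (h * α * P x y)⌉₊ : ℝ) < 1 / (h * α * P x y) + 1 :=
      Nat.ceil_lt_add_one (by positivity)
    have hover := hm2 x y _ β
      (le_sup (f := fun w : X × X => ⌈1 / (h * α * P w.1 w.2)⌉₊) (mem_univ (x, y))) (by
        have e1 : ((⌈1 / (h * α * P x y)⌉₊ : ℝ) - 1) * u x y ≤ 1 / (h * α * P x y) * u x y :=
          mul_le_mul_of_nonneg_right (by linarith) (mul_nonneg (by positivity) (hP x y))
        have e2 : 1 / (h * α * P x y) * u x y = 3 * CU := by
          simp only [u]; field_simp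
        have e3 : 3 * h * CU / L * (Real.log (Fintype.card X) / κ) ≤ 3 * h * CU / L * (L / κ) :=
          mul_le_mul_of_nonneg_left (div_le_div_of_nonneg_right hlog hκ0.le) (by positivity)
        have e4 : 3 * h * CU / L * (L / κ) = 12 * CU / cL := by
          rw [hκ]; field_simp; norm_num
        simp only at e1 ⊢
        linarith)
    have e1 : 1 / (h * α * P x y) * (Real.exp (-β) ^ 2 / 2) ≤ ∑ z, min (m x z) (m y z) :=
      le_trans (mul_le_mul_of_nonneg_right hj1 (by positivity)) hover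
    have e2 : ∑ z, min (h * m x z) (h * m y z) = h * ∑ z, min (m x z) (m y z) := by
      rw [mul_sum]; exact sum_congr rfl fun z _ => (mul_min_of_nonneg _ _ hh0.le).symm
    have e3 := mul_le_mul_of_nonneg_left e1 (by positivity : 0 ≤ h * α * P x y)
    have e4 : h * α * P x y * (1 / (h * α * P x y) * (Real.exp (-β) ^ 2 / 2))
        = Real.exp (-β) ^ 2 / 2 := by field_simp
    rw [e4] at e3
    rw [e2]
    refine e3.trans (le_of_eq ?_)
    simp only [P]; ring

theorem exists_gradient {p : ℝ} (hp : 1 ≤ p) : ∃ C : ℝ, 1 ≤ C ∧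
    ∀ (X : Type u) (T : Type v) [Fintype X] [Fintype T] (f : X → T → ℝ) (L : ℝ), 1 ≤ L →
      Real.log (Fintype.card X) ≤ L →
      ∃ G : X → T → ℝ, (∀ x t, 0 ≤ G x t) ∧
        (∀ x, ∑ t, G x t ^ p ≤ C * L ^ (max 1 (p / 2))) ∧
        ∀ x y t, |f x t - f y t| ≤ lpn p (fun t => f x t - f y t) * (G x t + G y t) := by
  have hp0 : 0 < p := by linarith
  obtain ⟨c1, c2, hc1, hc2, hw⟩ := exists_weights.{u, v} hp
  set B0 := 2 ^ p / c2 with hB0
  have hB0pos : 0 < B0 := by positivity
  refine ⟨1 + B0 * c1, by have : 0 < B0 * c1 := by positivity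
                          linarith, ?_⟩
  intro X T _ _ f L hL hlog
  have hL0 : 0 < L := by linarith
  rcases isEmpty_or_nonempty T with hT | hT
  · refine ⟨fun _ _ => 0, fun _ _ => le_rfl, fun x => ?_, fun x y t => isEmptyElim t⟩
    simp only [univ_eq_empty, sum_empty]
    positivity
  obtain ⟨m, hm0, hm1, hm2⟩ := hw X T f L hL hlog
  set α := L ^ (max 1 (p / 2) - 1) with hα
  have hα0 : 0 < α := Real.rpow_pos_of_pos hL0 _
  let P : X → X → ℝ := fun x z => ∑ t, |f x t - f z t| ^ p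
  have hP : ∀ x z, 0 ≤ P x z := fun x z => sum_abs_rpow_nonneg _
  let Gp : X → T → ℝ := fun x t => α * B0 * ∑ z, m x z * |f x t - f z t| ^ p
  have hGp : ∀ x t, 0 ≤ Gp x t := fun x t => mul_nonneg (by positivity)
    (sum_nonneg fun z _ => mul_nonneg (hm0 x z) (Real.rpow_nonneg (abs_nonneg _) _))
  have hGpow : ∀ x t, (Gp x t ^ (1 / p)) ^ p = Gp x t := fun x t => by
    rw [← Real.rpow_mul (hGp x t), one_div_mul_cancel hp0.ne', Real.rpow_one]
  refine ⟨fun x t => Gp x t ^ (1 / p), fun x t => Real.rpow_nonneg (hGp x t) _, ?_, ?_⟩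
  · intro x
    simp_rw [hGpow]
    have e : ∑ t, Gp x t = α * B0 * ∑ z, m x z * ∑ t, |f x t - f z t| ^ p := by
      simp only [Gp]
      rw [← mul_sum, sum_comm]
      simp_rw [← mul_sum]
    have e2 : L ^ (max 1 (p / 2)) = α * L := by
      rw [hα, Real.rpow_sub_one hL0.ne']; field_simp
    rw [e, e2]
    have h1 := mul_le_mul_of_nonneg_left (hm1 x) (by positivity : 0 ≤ α * B0)
    have h2 : 0 ≤ α * L := by positivity
    nlinarith
  · intro x y t
    have hlpn := lpn_rpow hp0 (fun t => f x t - f y t)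
    have hG0 : 0 ≤ Gp x t ^ (1 / p) + Gp y t ^ (1 / p) :=
      add_nonneg (Real.rpow_nonneg (hGp x t) _) (Real.rpow_nonneg (hGp y t) _)
    rcases eq_or_lt_of_le (hP x y) with h0 | h0
    · have h1 : |f x t - f y t| ≤ lpn p (fun t => f x t - f y t) :=
        abs_le_lpn hp0 (fun t => f x t - f y t) t
      have h2 : lpn p (fun t => f x t - f y t) ≤ 0 :=
        lpn_le_of_sum_le hp0 _ le_rfl (by rw [Real.zero_rpow hp0.ne']; exact h0.ge)
      have := mul_nonneg (lpn_nonneg (p := p) fun t => f x t - f y t) hG0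
      linarith
    have hover : c2 ≤ α * P x y * ∑ z, min (m x z) (m y z) := hm2 x y h0
    have h1 : |f x t - f y t| ^ p / 2 ^ p * ∑ z, min (m x z) (m y z)
        ≤ ∑ z, m x z * |f x t - f z t| ^ p + ∑ z, m y z * |f y t - f z t| ^ p := by
      rw [← sum_add_distrib, mul_sum]
      refine sum_le_sum fun z _ => ?_
      have e1 : |f x t - f y t| ≤ |f x t - f z t| + |f y t - f z t| := by
        have := abs_sub (f x t - f z t) (f y t - f z t)
        simpa using this
      have e2 : |f x t - f y t| ^ p ≤ 2 ^ p * (|f x t - f z t| ^ p + |f y t - f z t| ^ p) :=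
        (Real.rpow_le_rpow (abs_nonneg _) e1 hp0.le).trans
          (add_rpow_le_two_rpow hp0.le (abs_nonneg _) (abs_nonneg _))
      have e3 : |f x t - f y t| ^ p / 2 ^ p ≤ |f x t - f z t| ^ p + |f y t - f z t| ^ p := by
        rw [div_le_iff₀ (by positivity)]; linarith
      have e4 : 0 ≤ min (m x z) (m y z) := le_min (hm0 x z) (hm0 y z)
      have e5 : 0 ≤ |f x t - f z t| ^ p := Real.rpow_nonneg (abs_nonneg _) _
      have e6 : 0 ≤ |f y t - f z t| ^ p := Real.rpow_nonneg (abs_nonneg _) _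
      have e7 := mul_le_mul_of_nonneg_right (min_le_left (m x z) (m y z)) e5
      have e8 := mul_le_mul_of_nonneg_right (min_le_right (m x z) (m y z)) e6
      have e9 := mul_le_mul_of_nonneg_right e3 e4
      nlinarith
    have hD : 0 ≤ |f x t - f y t| ^ p := Real.rpow_nonneg (abs_nonneg _) _
    have h2 : |f x t - f y t| ^ p ≤ P x y * (Gp x t + Gp y t) := by
      have e2 := mul_le_mul_of_nonneg_left h1 (by positivity : 0 ≤ P x y * (α * B0))
      have e3 := mul_le_mul_of_nonneg_left hover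
        (by positivity : 0 ≤ B0 * (|f x t - f y t| ^ p / 2 ^ p))
      have e4 : B0 * (|f x t - f y t| ^ p / 2 ^ p) * c2 = |f x t - f y t| ^ p := by
        rw [hB0]; field_simp
      rw [e4] at e3
      refine e3.trans (le_trans (le_of_eq (by ring)) (e2.trans (le_of_eq ?_)))
      simp only [Gp]; ring
    have h3 : Gp x t + Gp y t ≤ (Gp x t ^ (1 / p) + Gp y t ^ (1 / p)) ^ p := by
      have := Real.add_rpow_le_rpow_add (Real.rpow_nonneg (hGp x t) (1 / p))
        (Real.rpow_nonneg (hGp y t) (1 / p)) hp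
      rwa [hGpow, hGpow] at this
    refine (Real.rpow_le_rpow_iff (abs_nonneg _) (mul_nonneg (lpn_nonneg _) hG0) hp0).1 ?_
    rw [Real.mul_rpow (lpn_nonneg _) hG0, hlpn]
    exact h2.trans (mul_le_mul_of_nonneg_left h3 (hP x y))

end Vale.Agent.P249
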