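import Vale.Agent.P249.Finite
import Vale.Agent.P249.Exact
import Mathlib.Analysis.SpecialFunctions.Pow.Asymptotics

/-! The main theorems. -/

open Finset MeasureTheory Filter Asymptotics

namespace Vale.Agent.P249

universe u

theorem exists_embeds {p : ℝ} (hp : 1 ≤ p) {D : ℝ} (hD : 1 < D) :
    ∃ dim : ℕ → ℕ, Sm (fun n => (1 + Real.log n) ^ max (1 / p) (1 / 2)) (fun n => dim n) ∧
      ∀ n, Embeds.{u} p n (dim n) D := by
  classical
  have hp0 : 0 < p := by linarith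
  have : Fact (1 ≤ ENNReal.ofReal p) := ⟨by simpa using hp⟩
  set ε := min (1 / 4) ((D - 1) / 8) with hε
  have hε0 : 0 < ε := lt_min (by norm_num) (by linarith)
  have hε1 : ε ≤ 1 / 4 := min_le_left _ _
  have hε2 : ε ≤ (D - 1) / 8 := min_le_right _ _
  obtain ⟨dim, hdim, hemb⟩ := finite_embed.{u, 0} hp hε0 (by linarith)
  refine ⟨dim, hdim, fun n Ω _ μ X hX => ?_⟩
  obtain ⟨T, _, f, hf⟩ := lp_approx hp (fun a : X => (a : Lp ℝ (ENNReal.ofReal p) μ))
    Subtype.val_injective hε0 (by linarith)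
  obtain ⟨g, hg⟩ := hemb X T f
  have hc : Fintype.card X = n := by rw [Fintype.card_coe, hX]
  subst hc
  refine ⟨fun x => if h : x ∈ X then g ⟨x, h⟩ else 0, (1 - ε) ^ 2, by nlinarith, ?_⟩
  intro x hx y hy
  simp only [dif_pos hx, dif_pos hy]
  obtain ⟨h1, h2⟩ := hf ⟨x, hx⟩ ⟨y, hy⟩
  obtain ⟨h3, h4⟩ := hg ⟨x, hx⟩ ⟨y, hy⟩
  have h5 := norm_nonneg (x - y)
  change (1 - ε) * ‖x - y‖ ≤ _ at h1
  change _ ≤ (1 + ε) * ‖x - y‖ at h2
  constructor
  · refine le_trans ?_ h3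
    rw [sq, mul_assoc]
    exact mul_le_mul_of_nonneg_left h1 (by linarith)
  · refine h4.trans ((mul_le_mul_of_nonneg_left h2 (by linarith)).trans ?_)
    rw [← mul_assoc]
    refine mul_le_mul_of_nonneg_right ?_ h5
    have a1 : (1 + 8 * ε) * (1 - ε) ^ 2 ≤ D * (1 - ε) ^ 2 :=
      mul_le_mul_of_nonneg_right (by linarith) (sq_nonneg _)
    have a2 : 0 ≤ ε * (1 - 4 * ε) := mul_nonneg hε0.le (by linarith)
    have a3 : 0 ≤ ε ^ 3 := by positivity
    nlinarith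

theorem dp_le_exp {p : ℝ} (hp : 1 ≤ p) {D : ℝ} (hD : 1 < D) :
    ∃ C : ℝ, 0 ≤ C ∧ ∀ n : ℕ, 2 ≤ n → Embeds.{u} p n (dp.{u} p n D) D ∧
      (dp.{u} p n D : ℝ) ≤ Real.exp (C * Real.log n ^ max (1 / p) (1 / 2)) := by
  obtain ⟨dim, ⟨C, hC, hdim⟩, hemb⟩ := exists_embeds.{u} hp hD
  refine ⟨C * 3, by positivity, fun n hn =>
    ⟨Nat.sInf_mem (s := {d | Embeds.{u} p n d D}) ⟨dim n, hemb n⟩, ?_⟩⟩
  have h1 : (dp.{u} p n D : ℝ) ≤ dim n := by
    exact_mod_cast Nat.sInf_le (s := {d | Embeds.{u} p n d D}) (hemb n)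
  refine h1.trans ((hdim n).trans (Real.exp_le_exp.2 ?_))
  rw [mul_assoc]
  refine mul_le_mul_of_nonneg_left ?_ hC
  have h2 : Real.log 2 ≤ Real.log n := Real.log_le_log (by norm_num) (by exact_mod_cast hn)
  have h3 := Real.log_two_gt_d9
  have hγ0 : 0 ≤ max (1 / p) (1 / 2) := le_max_of_le_right (by norm_num)
  have hγ1 : max (1 / p) (1 / 2) ≤ 1 :=
    max_le (by rw [div_le_one (by linarith)]; exact hp) (by norm_num)
  have h4 : (1 + Real.log n) ^ max (1 / p) (1 / 2) ≤ (3 * Real.log n) ^ max (1 / p) (1 / 2) :=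
    Real.rpow_le_rpow (by linarith) (by linarith) hγ0
  rw [Real.mul_rpow (by norm_num) (by linarith)] at h4
  have h5 := Real.rpow_le_rpow_of_exponent_le (x := 3) (by norm_num) hγ1
  rw [Real.rpow_one] at h5
  exact h4.trans (mul_le_mul_of_nonneg_right h5 (Real.rpow_nonneg (by linarith) _))

lemma exp_log_rpow_isLittleO {C γ δ : ℝ} (hγ : γ < 1) (hδ : 0 < δ) :
    (fun n : ℕ => Real.exp (C * Real.log n ^ γ)) =o[atTop] fun n : ℕ => (n : ℝ) ^ δ := by
  have hlog : Tendsto (fun n : ℕ => Real.log n) atTop atTop :=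
    Real.tendsto_log_atTop.comp tendsto_natCast_atTop_atTop
  have h1 : (fun x : ℝ => Real.exp (C * x ^ γ)) =o[atTop] fun x : ℝ => Real.exp (δ * x) := by
    rw [Real.isLittleO_exp_comp_exp_comp]
    have h2 : Tendsto (fun x : ℝ => δ - C * x ^ (-(1 - γ))) atTop (nhds (δ - C * 0)) :=
      tendsto_const_nhds.sub ((tendsto_rpow_neg_atTop (by linarith)).const_mul C)
    rw [mul_zero, sub_zero] at h2
    refine (Tendsto.pos_mul_atTop hδ h2 tendsto_id).congr' ?_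
    filter_upwards [eventually_gt_atTop 0] with x hx
    have : x ^ γ = x ^ (-(1 - γ)) * x := by
      rw [← Real.rpow_add_one hx.ne']; congr 1; ring
    simp only [id, this]
    ring
  refine (h1.comp_tendsto hlog).congr' EventuallyEq.rfl ?_
  filter_upwards [eventually_gt_atTop 0] with n hn
  have hn' : (0 : ℝ) < n := by exact_mod_cast hn
  simp only [Function.comp]
  rw [Real.rpow_def_of_pos hn', mul_comm]

theorem main (p : ℝ) (hp : 1 < p) :
    (∀ D : ℝ, 1 < D →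
      (∃ C : ℝ, ∀ n : ℕ, 2 ≤ n → Embeds.{u} p n (dp.{u} p n D) D ∧
        (dp.{u} p n D : ℝ) ≤ Real.exp (C * Real.log n ^ max (1 / p) (1 / 2))) ∧
      ∀ δ : ℝ, 0 < δ → (fun n : ℕ => (dp.{u} p n D : ℝ)) =o[atTop] fun n : ℕ => (n : ℝ) ^ δ) ∧
    (p ≠ 2 → ∀ n d : ℕ, Embeds.{u} p n d 1 → ((n - 1) / 4) ^ 2 ≤ d) := by
  refine ⟨fun D hD => ?_, fun hp2 n d h => exact_lower hp hp2 n d h⟩
  obtain ⟨C, -, hC⟩ := dp_le_exp.{u} hp.le hD
  refine ⟨⟨C, hC⟩, fun δ hδ => ?_⟩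
  have hγ : max (1 / p) (1 / 2) < 1 :=
    max_lt (by rw [div_lt_one (by linarith)]; exact hp) (by norm_num)
  refine IsBigO.trans_isLittleO (IsBigO.of_bound 1 ?_) (exp_log_rpow_isLittleO (C := C) hγ hδ)
  filter_upwards [eventually_ge_atTop 2] with n hn
  rw [one_mul, Real.norm_of_nonneg (Nat.cast_nonneg _), Real.norm_of_nonneg (Real.exp_pos _).le]
  exact (hC n hn).2

end Vale.Agent.P249
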