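import Vale.Agent.P249.Basic
import Mathlib.Algebra.Module.LinearMap.End
import Mathlib.Algebra.BigOperators.Field

/-! An adaptive observation process on a finite set and its entropy bookkeeping. -/

open Finset

namespace Vale.Agent.P249

section posop
variable {S : Type*} (K : (S → ℝ) →ₗ[ℝ] (S → ℝ))

lemma posop_pow_nonneg (hK : ∀ ψ, 0 ≤ ψ → 0 ≤ K ψ) (j : ℕ) :
    ∀ ψ, 0 ≤ ψ → 0 ≤ (K ^ j) ψ := by
  induction j with
  | zero => intro ψ h; simpa using h
  | succ j ih =>
    intro ψ h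
    rw [pow_succ, Module.End.mul_apply]
    exact ih _ (hK ψ h)

lemma posop_pow_mono (hK : ∀ ψ, 0 ≤ ψ → 0 ≤ K ψ) (j : ℕ) {ψ χ : S → ℝ} (h : ψ ≤ χ) :
    (K ^ j) ψ ≤ (K ^ j) χ := by
  have := posop_pow_nonneg K hK j (χ - ψ) (sub_nonneg.2 h)
  rw [map_sub] at this
  exact sub_nonneg.1 this

lemma posop_telescope (hK : ∀ ψ, 0 ≤ ψ → 0 ≤ K ψ) {ψ χ : S → ℝ} (h : K ψ ≤ ψ + χ) (j : ℕ) :
    (K ^ j) ψ ≤ ψ + ∑ i ∈ range j, (K ^ i) χ := by
  induction j with
  | zero => simp
  | succ j ih =>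
    rw [pow_succ, Module.End.mul_apply, sum_range_succ]
    have h1 := posop_pow_mono K hK j h
    rw [map_add] at h1
    calc (K ^ j) (K ψ) ≤ (K ^ j) ψ + (K ^ j) χ := h1
      _ ≤ (ψ + ∑ i ∈ range j, (K ^ i) χ) + (K ^ j) χ := by gcongr
      _ = _ := by rw [add_assoc]

lemma posop_fixed {ψ : S → ℝ} (h : K ψ = ψ) (j : ℕ) : (K ^ j) ψ = ψ := by
  induction j with
  | zero => simp
  | succ j ih => rw [pow_succ, Module.End.mul_apply, h, ih]

end posop

section process
variable {X O : Type*} [Fintype X] [Fintype O]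

/-- Positive amplitude vectors. -/
abbrev St (X : Type*) := {A : X → ℝ // ∀ z, 0 < A z}

/-- One update of the amplitudes. -/
def stp (a : X → O → X → ℝ) (ha : ∀ c o z, 0 < a c o z) (c : X) (o : O) (A : St X) : St X :=
  ⟨fun z => A.1 z * a c o z, fun z => mul_pos (A.2 z) (ha c o z)⟩

/-- Normalised weights. -/
noncomputable def wt (A : St X) (z : X) : ℝ := A.1 z / ∑ y, A.1 y

/-- The transition operator. -/
noncomputable def Kop (a : X → O → X → ℝ) (ha : ∀ c o z, 0 < a c o z) :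
    (St X → ℝ) →ₗ[ℝ] (St X → ℝ) where
  toFun ψ A := ∑ c, wt A c * ∑ o, ψ (stp a ha c o A)
  map_add' ψ χ := by
    funext A
    simp [sum_add_distrib, mul_add]
  map_smul' r ψ := by
    funext A
    simp only [Pi.smul_apply, smul_eq_mul, RingHom.id_apply, mul_sum]
    refine sum_congr rfl fun c _ => sum_congr rfl fun o _ => by ring

lemma st_sum_pos (A : St X) (x : X) : 0 < ∑ y, A.1 y :=
  sum_pos (fun y _ => A.2 y) ⟨x, mem_univ x⟩

lemma wt_nonneg (A : St X) (z : X) : 0 ≤ wt A z :=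
  div_nonneg (A.2 z).le (st_sum_pos A z).le

lemma wt_sum (A : St X) (x : X) : ∑ z, wt A z = 1 := by
  unfold wt
  rw [← sum_div, div_self (st_sum_pos A x).ne']

lemma Kop_apply (a : X → O → X → ℝ) (ha : ∀ c o z, 0 < a c o z) (ψ : St X → ℝ) (A : St X) :
    Kop a ha ψ A = ∑ c, wt A c * ∑ o, ψ (stp a ha c o A) := rfl

lemma Kop_pos (a : X → O → X → ℝ) (ha : ∀ c o z, 0 < a c o z) (ψ : St X → ℝ) (h : 0 ≤ ψ) :
    0 ≤ Kop a ha ψ := fun A => by
  rw [Kop_apply]
  exact sum_nonneg fun c _ => mul_nonneg (wt_nonneg A c) (sum_nonneg fun o _ => h _)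

/-- If the inner sums are bounded by `g c`, so is the average. -/
lemma Kop_le (a : X → O → X → ℝ) (ha : ∀ c o z, 0 < a c o z) (ψ : St X → ℝ) (A : St X)
    (g : X → ℝ) (h : ∀ c, ∑ o, ψ (stp a ha c o A) ≤ g c) :
    Kop a ha ψ A ≤ ∑ c, wt A c * g c := by
  rw [Kop_apply]
  exact sum_le_sum fun c _ => mul_le_mul_of_nonneg_left (h c) (wt_nonneg A c)

lemma Kop_sq (a : X → O → X → ℝ) (ha : ∀ c o z, 0 < a c o z)
    (hn : ∀ c z, ∑ o, a c o z ^ 2 = 1) (x : X) :
    Kop a ha (fun A => A.1 x ^ 2) = fun A => A.1 x ^ 2 := by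
  funext A
  rw [Kop_apply]
  have : ∀ c, ∑ o, (stp a ha c o A).1 x ^ 2 = A.1 x ^ 2 := fun c => by
    simp only [stp, mul_pow]
    rw [← mul_sum, hn, mul_one]
  simp_rw [this]
  rw [← sum_mul, wt_sum A x, one_mul]

lemma Kop_entropy (a : X → O → X → ℝ) (ha : ∀ c o z, 0 < a c o z)
    (hn : ∀ c z, ∑ o, a c o z ^ 2 = 1) (P : X → X → ℝ) (κ : ℝ)
    (hL : ∀ x z c, κ * (P x z + P x c)
      ≤ (1 - ∑ o, a c o x * a c o z) + (1 - ∑ o, a z o x * a z o c)) (x : X) :
    Kop a ha (fun A => A.1 x ^ 2 * Real.log ((∑ y, A.1 y) / A.1 x))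
      ≤ (fun A => A.1 x ^ 2 * Real.log ((∑ y, A.1 y) / A.1 x))
        + (-κ) • fun A => A.1 x ^ 2 * ∑ z, wt A z * P x z := by
  intro A
  have hS := st_sum_pos A x
  have hx := A.2 x
  have h1 : ∀ c, ∑ o, (stp a ha c o A).1 x ^ 2
        * Real.log ((∑ y, (stp a ha c o A).1 y) / (stp a ha c o A).1 x)
      ≤ A.1 x ^ 2 * Real.log ((∑ y, A.1 y) / A.1 x)
        - A.1 x ^ 2 * ∑ z, wt A z * (1 - ∑ o, a c o x * a c o z) := by
    intro c
    have h2 : ∀ o, (stp a ha c o A).1 x ^ 2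
          * Real.log ((∑ y, (stp a ha c o A).1 y) / (stp a ha c o A).1 x)
        ≤ A.1 x ^ 2 * (a c o x ^ 2 * Real.log ((∑ y, A.1 y) / A.1 x)
          + ∑ z, wt A z * (a c o x * a c o z) - a c o x ^ 2) := by
      intro o
      have hax := ha c o x
      set R := (∑ z, wt A z * a c o z) / a c o x with hR
      have hRpos : 0 < R := by
        refine div_pos (sum_pos (fun z _ => mul_pos (div_pos (A.2 z) hS) (ha c o z))
          ⟨x, mem_univ x⟩) hax
      have e1 : (∑ y, (stp a ha c o A).1 y) / (stp a ha c o A).1 x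
          = (∑ y, A.1 y) / A.1 x * R := by
        simp only [stp, hR, wt]
        have : ∑ z, A.1 z / (∑ y, A.1 y) * a c o z = (∑ z, A.1 z * a c o z) / ∑ y, A.1 y := by
          rw [sum_div]; exact sum_congr rfl fun z _ => by ring
        rw [this]
        field_simp
      rw [e1, Real.log_mul (by positivity) hRpos.ne']
      have e2 : ∑ z, wt A z * (a c o x * a c o z) = a c o x ^ 2 * R := by
        rw [hR]
        have : ∑ z, wt A z * (a c o x * a c o z) = a c o x * ∑ z, wt A z * a c o z := by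
          rw [mul_sum]; exact sum_congr rfl fun z _ => by ring
        rw [this]; field_simp
      rw [e2]
      have hlog := Real.log_le_sub_one_of_pos hRpos
      have e3 : (stp a ha c o A).1 x ^ 2 = A.1 x ^ 2 * a c o x ^ 2 := by
        simp only [stp, mul_pow]
      rw [e3]
      have : 0 ≤ A.1 x ^ 2 * a c o x ^ 2 := by positivity
      nlinarith
    refine (sum_le_sum fun o _ => h2 o).trans (le_of_eq ?_)
    rw [← mul_sum, sum_sub_distrib, sum_add_distrib, ← sum_mul, hn, sum_comm]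
    simp_rw [mul_sub, mul_one, sum_sub_distrib, ← mul_sum]
    rw [wt_sum A x]
    ring
  refine (Kop_le a ha _ A _ h1).trans ?_
  simp only [Pi.add_apply, Pi.smul_apply, smul_eq_mul]
  simp_rw [mul_sub]
  rw [sum_sub_distrib, ← sum_mul, wt_sum A x, one_mul]
  have h3 : κ * ∑ z, wt A z * P x z
      ≤ ∑ c, wt A c * ∑ z, wt A z * (1 - ∑ o, a c o x * a c o z) := by
    set B := ∑ c, wt A c * ∑ z, wt A z * (1 - ∑ o, a c o x * a c o z) with hB
    have e1 : B = ∑ c, ∑ z, wt A c * wt A z * (1 - ∑ o, a c o x * a c o z) := by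
      rw [hB]
      refine sum_congr rfl fun c _ => ?_
      rw [mul_sum]; exact sum_congr rfl fun z _ => by ring
    have e2 : B = ∑ c, ∑ z, wt A c * wt A z * (1 - ∑ o, a z o x * a z o c) := by
      rw [e1, sum_comm]
      exact sum_congr rfl fun c _ => sum_congr rfl fun z _ => by ring
    have e3 : ∑ c, ∑ z, wt A c * wt A z * (κ * (P x z + P x c))
        = 2 * (κ * ∑ z, wt A z * P x z) := by
      have f1 : ∑ c, ∑ z, wt A c * wt A z * P x z = ∑ z, wt A z * P x z := by
        simp_rw [mul_assoc, ← mul_sum]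
        rw [← sum_mul, wt_sum A x, one_mul]
      have f2 : ∑ c, ∑ z, wt A c * wt A z * P x c = ∑ z, wt A z * P x z := by
        rw [sum_comm, ← f1]
        exact sum_congr rfl fun c _ => sum_congr rfl fun z _ => by ring
      have f3 : ∑ c, ∑ z, wt A c * wt A z * (κ * (P x z + P x c))
          = κ * (∑ c, ∑ z, wt A c * wt A z * P x z + ∑ c, ∑ z, wt A c * wt A z * P x c) := by
        rw [← sum_add_distrib, mul_sum]
        refine sum_congr rfl fun c _ => ?_
        rw [← sum_add_distrib, mul_sum]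
        exact sum_congr rfl fun z _ => by ring
      rw [f3, f1, f2]; ring
    have e4 : ∑ c, ∑ z, wt A c * wt A z * (κ * (P x z + P x c)) ≤ B + B := by
      conv_rhs => rw [e1]
      conv_rhs => enter [2]; rw [← e1, e2]
      rw [← sum_add_distrib]
      refine sum_le_sum fun c _ => ?_
      rw [← sum_add_distrib]
      refine sum_le_sum fun z _ => ?_
      rw [← mul_add]
      exact mul_le_mul_of_nonneg_left (hL x z c) (mul_nonneg (wt_nonneg A c) (wt_nonneg A z))
    linarith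
  have e5 : ∑ c, wt A c * (A.1 x ^ 2 * ∑ z, (wt A z * 1 - wt A z * ∑ o, a c o x * a c o z))
      = A.1 x ^ 2 * ∑ c, wt A c * ∑ z, wt A z * (1 - ∑ o, a c o x * a c o z) := by
    rw [mul_sum]
    refine sum_congr rfl fun c _ => ?_
    simp_rw [mul_sub]
    ring
  rw [e5]
  have : 0 ≤ A.1 x ^ 2 := sq_nonneg _
  nlinarith

lemma Kop_kl (a : X → O → X → ℝ) (ha : ∀ c o z, 0 < a c o z)
    (hn : ∀ c z, ∑ o, a c o z ^ 2 = 1) (P : X → X → ℝ) (u v : ℝ) (x y : X)
    (hU : ∀ c, ∑ o, a c o x ^ 2 * Real.log (a c o x / a c o y) ≤ u + v * P x c) :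
    Kop a ha (fun A => A.1 x ^ 2 * Real.log (A.1 x / A.1 y))
      ≤ (fun A => A.1 x ^ 2 * Real.log (A.1 x / A.1 y))
        + (u • (fun A => A.1 x ^ 2) + v • fun A => A.1 x ^ 2 * ∑ z, wt A z * P x z) := by
  intro A
  have hx := A.2 x
  have hy := A.2 y
  have h1 : ∀ c, ∑ o, (stp a ha c o A).1 x ^ 2
        * Real.log ((stp a ha c o A).1 x / (stp a ha c o A).1 y)
      ≤ A.1 x ^ 2 * Real.log (A.1 x / A.1 y) + A.1 x ^ 2 * (u + v * P x c) := by
    intro c
    have h2 : ∀ o, (stp a ha c o A).1 x ^ 2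
          * Real.log ((stp a ha c o A).1 x / (stp a ha c o A).1 y)
        = A.1 x ^ 2 * (a c o x ^ 2 * Real.log (A.1 x / A.1 y)
          + a c o x ^ 2 * Real.log (a c o x / a c o y)) := by
      intro o
      have hax := ha c o x
      have hay := ha c o y
      simp only [stp]
      rw [mul_div_mul_comm, Real.log_mul (by positivity) (by positivity)]
      ring
    simp_rw [h2]
    rw [← mul_sum, sum_add_distrib, ← sum_mul, hn, one_mul, mul_add]
    have := mul_le_mul_of_nonneg_left (hU c) (sq_nonneg (A.1 x))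
    linarith
  refine (Kop_le a ha _ A _ h1).trans (le_of_eq ?_)
  simp only [Pi.add_apply, Pi.smul_apply, smul_eq_mul]
  simp_rw [mul_add]
  rw [sum_add_distrib, sum_add_distrib, ← sum_mul, ← sum_mul, wt_sum A x, mul_sum, mul_sum]
  have : ∀ c, wt A c * (A.1 x ^ 2 * (v * P x c)) = v * (A.1 x ^ 2 * (wt A c * P x c)) :=
    fun c => by ring
  simp_rw [this]
  ring

lemma min_sq_ge (s t b : ℝ) :
    b * (s * t) - b ^ 2 / 4 * (s ^ 2 + t ^ 2) ≤ min (s ^ 2) (t ^ 2) := by
  refine le_min ?_ ?_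
  · nlinarith [sq_nonneg (s - b * t / 2), sq_nonneg (b * s)]
  · nlinarith [sq_nonneg (t - b * s / 2), sq_nonneg (b * t)]

lemma mul_ge_tangent (s t β : ℝ) (hs : 0 < s) (ht : 0 < t) :
    Real.exp (-β) * ((1 + β) * s ^ 2 - s ^ 2 * Real.log (s / t)) ≤ s * t := by
  have h1 := Real.add_one_le_exp (β - Real.log (s / t))
  have h2 : Real.exp (-β) * Real.exp (β - Real.log (s / t)) = t / s := by
    rw [← Real.exp_add, show -β + (β - Real.log (s / t)) = - Real.log (s / t) by ring,
      Real.exp_neg, Real.exp_log (by positivity), inv_div]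
  have h3 : s * t = s ^ 2 * (t / s) := by field_simp
  rw [h3, ← h2]
  have : 0 ≤ Real.exp (-β) * s ^ 2 := by positivity
  nlinarith

theorem process (a : X → O → X → ℝ) (ha : ∀ c o z, 0 < a c o z)
    (hn : ∀ c z, ∑ o, a c o z ^ 2 = 1) (P : X → X → ℝ) (hP : ∀ x z, 0 ≤ P x z)
    (κ v : ℝ) (u : X → X → ℝ) (hκ : 0 < κ) (hv : 0 ≤ v) (hu : ∀ x y, 0 ≤ u x y)
    (hL : ∀ x z c, κ * (P x z + P x c)
      ≤ (1 - ∑ o, a c o x * a c o z) + (1 - ∑ o, a z o x * a z o c))
    (hU : ∀ c x y, ∑ o, a c o x ^ 2 * Real.log (a c o x / a c o y) ≤ u x y + v * P x c)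
    (J : ℕ) :
    ∃ m : X → X → ℝ, (∀ x z, 0 ≤ m x z) ∧
      (∀ x, κ * ∑ z, m x z * P x z ≤ Real.log (Fintype.card X)) ∧
      ∀ (x y : X) (j0 : ℕ) (β : ℝ), j0 ≤ J →
        ((j0 : ℝ) - 1) * u x y + v * (Real.log (Fintype.card X) / κ) ≤ β →
        j0 * (Real.exp (-β) ^ 2 / 2) ≤ ∑ z, min (m x z) (m y z) := by
  set K := Kop a ha with hKdef
  have hK : ∀ ψ, 0 ≤ ψ → 0 ≤ K ψ := Kop_pos a ha
  let one : St X := ⟨fun _ => 1, fun _ => one_pos⟩
  let cost : X → St X → ℝ := fun x A => A.1 x ^ 2 * ∑ z, wt A z * P x z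
  have hcost : ∀ x, 0 ≤ cost x := fun x A =>
    mul_nonneg (sq_nonneg _) (sum_nonneg fun z _ => mul_nonneg (wt_nonneg A z) (hP x z))
  have hent : ∀ x j, κ * ∑ i ∈ range j, (K ^ i) (cost x) one ≤ Real.log (Fintype.card X) := by
    intro x j
    have h1 := posop_telescope K hK (Kop_entropy a ha hn P κ hL x) j one
    have h2 : 0 ≤ (K ^ j) (fun A : St X => A.1 x ^ 2 * Real.log ((∑ y, A.1 y) / A.1 x)) one := by
      refine posop_pow_nonneg K hK j _ (fun A => ?_) one
      refine mul_nonneg (sq_nonneg _) (Real.log_nonneg ?_)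
      rw [le_div_iff₀ (A.2 x), one_mul]
      exact single_le_sum (f := fun y => A.1 y) (fun y _ => (A.2 y).le) (mem_univ x)
    simp only [map_smul, Pi.add_apply, Finset.sum_apply, Pi.smul_apply, smul_eq_mul] at h1
    have h3 : one.1 x ^ 2 * Real.log ((∑ y, one.1 y) / one.1 x) = Real.log (Fintype.card X) := by
      simp [one]
    rw [h3, ← mul_sum] at h1
    change κ * ∑ i ∈ range j, (K ^ i) (fun A => A.1 x ^ 2 * ∑ z, wt A z * P x z) one ≤ _
    linarith
  refine ⟨fun x z => ∑ i ∈ range J, (K ^ i) (fun A => A.1 x ^ 2 * wt A z) one, ?_, ?_, ?_⟩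
  · intro x z
    exact sum_nonneg fun i _ => posop_pow_nonneg K hK i _
      (fun A => mul_nonneg (sq_nonneg _) (wt_nonneg A z)) one
  · intro x
    refine le_of_eq_of_le ?_ (hent x J)
    congr 1
    simp_rw [sum_mul]
    rw [sum_comm]
    refine sum_congr rfl fun i _ => ?_
    have : cost x = ∑ z, P x z • fun A : St X => A.1 x ^ 2 * wt A z := by
      funext A
      simp only [cost, Finset.sum_apply, Pi.smul_apply, smul_eq_mul, mul_sum]
      exact sum_congr rfl fun z _ => by ring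
    rw [this, map_sum]
    simp only [map_smul, Finset.sum_apply, Pi.smul_apply, smul_eq_mul]
    exact sum_congr rfl fun z _ => by ring
  · intro x y j0 β hj0 hβ
    have hsq : ∀ w i, (K ^ i) (fun A : St X => A.1 w ^ 2) one = 1 := fun w i => by
      rw [posop_fixed K (Kop_sq a ha hn w) i]; simp [one]
    have hover : ∀ j, j < j0 → Real.exp (-β) ^ 2 / 2
        ≤ (K ^ j) (fun A : St X => min (A.1 x ^ 2) (A.1 y ^ 2)) one := by
      intro j hj
      have h1 := posop_telescope K hK (Kop_kl a ha hn P (u x y) v x y (fun c => hU c x y)) j one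
      simp only [map_add, map_smul, Pi.add_apply, Finset.sum_apply, Pi.smul_apply, smul_eq_mul,
        hsq] at h1
      have h3 : one.1 x ^ 2 * Real.log (one.1 x / one.1 y) = 0 := by simp [one]
      rw [h3, sum_add_distrib, ← mul_sum, ← mul_sum, sum_const, card_range, nsmul_eq_mul] at h1
      have h4 := hent x j
      have h5 : ∑ i ∈ range j, (K ^ i) (cost x) one ≤ Real.log (Fintype.card X) / κ := by
        rw [le_div_iff₀ hκ]; linarith
      have h6 : (j : ℝ) ≤ (j0 : ℝ) - 1 := by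
        have : (j : ℝ) + 1 ≤ j0 := by exact_mod_cast hj
        linarith
      have h7 : (K ^ j) (fun A : St X => A.1 x ^ 2 * Real.log (A.1 x / A.1 y)) one ≤ β := by
        have e1 := mul_le_mul_of_nonneg_left h5 hv
        have e2 := mul_le_mul_of_nonneg_right h6 (hu x y)
        change _ ≤ 0 + (u x y * (j * 1) + v * ∑ i ∈ range j, (K ^ i) (cost x) one) at h1
        nlinarith
      set b := Real.exp (-β) with hb
      have hbpos : 0 < b := Real.exp_pos _
      have h8 : (b * b * (1 + β) - b ^ 2 / 4) • (fun A : St X => A.1 x ^ 2)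
          + (-(b * b)) • (fun A : St X => A.1 x ^ 2 * Real.log (A.1 x / A.1 y))
          + (-(b ^ 2 / 4)) • (fun A : St X => A.1 y ^ 2)
          ≤ fun A : St X => min (A.1 x ^ 2) (A.1 y ^ 2) := by
        intro A
        simp only [Pi.add_apply, Pi.smul_apply, smul_eq_mul]
        have e1 := min_sq_ge (A.1 x) (A.1 y) b
        have e2 := mul_ge_tangent (A.1 x) (A.1 y) β (A.2 x) (A.2 y)
        rw [← hb] at e2
        have e3 := mul_le_mul_of_nonneg_left e2 hbpos.le
        nlinarith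
      have h9 := posop_pow_mono K hK j h8 one
      simp only [map_add, map_smul, Pi.add_apply, Pi.smul_apply, smul_eq_mul, hsq] at h9
      have : 0 ≤ b * b := by positivity
      nlinarith
    have hmin : ∀ z, ∑ i ∈ range J, (K ^ i) (fun A : St X => min (A.1 x ^ 2) (A.1 y ^ 2) * wt A z) one
        ≤ min (∑ i ∈ range J, (K ^ i) (fun A => A.1 x ^ 2 * wt A z) one)
          (∑ i ∈ range J, (K ^ i) (fun A => A.1 y ^ 2 * wt A z) one) := by
      intro z
      refine le_min (sum_le_sum fun i _ => ?_) (sum_le_sum fun i _ => ?_)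
      · exact posop_pow_mono K hK i
          (fun A => mul_le_mul_of_nonneg_right (min_le_left _ _) (wt_nonneg A z)) one
      · exact posop_pow_mono K hK i
          (fun A => mul_le_mul_of_nonneg_right (min_le_right _ _) (wt_nonneg A z)) one
    refine le_trans ?_ (sum_le_sum fun z _ => hmin z)
    rw [sum_comm]
    have e : ∀ i, ∑ z, (K ^ i) (fun A : St X => min (A.1 x ^ 2) (A.1 y ^ 2) * wt A z) one
        = (K ^ i) (fun A : St X => min (A.1 x ^ 2) (A.1 y ^ 2)) one := by
      intro i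
      have : (fun A : St X => min (A.1 x ^ 2) (A.1 y ^ 2))
          = ∑ z, fun A : St X => min (A.1 x ^ 2) (A.1 y ^ 2) * wt A z := by
        funext A
        simp only [Finset.sum_apply]
        rw [← mul_sum, wt_sum A x, mul_one]
      rw [this, map_sum, Finset.sum_apply]
    simp_rw [e]
    calc (j0 : ℝ) * (Real.exp (-β) ^ 2 / 2) = ∑ _i ∈ range j0, Real.exp (-β) ^ 2 / 2 := by
          rw [sum_const, card_range, nsmul_eq_mul]
      _ ≤ ∑ i ∈ range j0, (K ^ i) (fun A : St X => min (A.1 x ^ 2) (A.1 y ^ 2)) one :=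
          sum_le_sum fun i hi => hover i (mem_range.1 hi)
      _ ≤ _ := sum_le_sum_of_subset_of_nonneg (range_subset_range.2 hj0) fun i _ _ =>
          posop_pow_nonneg K hK i _ (fun A => le_min (sq_nonneg _) (sq_nonneg _)) one

end process

end Vale.Agent.P249
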