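import Vale.Agent.P249.Basic
import Mathlib.Algebra.BigOperators.Fin
import Mathlib.Algebra.BigOperators.Field
import Mathlib.Analysis.Complex.ExponentialBounds

/-! Sparsification of finite probability spaces and product Bernoulli computations. -/

open Finset

namespace Vale.Agent.P249

lemma exists_samples_exp {S P : Type*} [Fintype S] [Fintype P] (w : S → ℝ) (hw0 : ∀ s, 0 ≤ w s)
    (hw1 : ∑ s, w s = 1) (Y : P → S → ℝ) (b : ℝ) (hb : b ≤ 1)
    (hY : ∀ k s, w s ≠ 0 → |Y k s| ≤ b) (hmean : ∀ k, ∑ s, w s * Y k s = 0) (d : ℕ) :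
    ∃ s : Fin d → S, ∑ k, Real.exp (∑ i, Y k (s i)) ≤ Fintype.card P * Real.exp (d * b ^ 2) := by
  induction d with
  | zero => exact ⟨Fin.elim0, by simp⟩
  | succ d ih =>
    obtain ⟨s, hs⟩ := ih
    have hne : (univ : Finset S).Nonempty := by
      by_contra hc
      rw [not_nonempty_iff_eq_empty] at hc
      rw [hc] at hw1
      simp at hw1
    let F : S → ℝ := fun s0 => ∑ k, Real.exp (∑ i, Y k (s i)) * Real.exp (Y k s0)
    obtain ⟨s0, _, hs0⟩ := exists_min_image univ F hne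
    have h1 : F s0 ≤ ∑ s', w s' * F s' := by
      calc F s0 = ∑ s', w s' * F s0 := by rw [← sum_mul, hw1, one_mul]
        _ ≤ _ := sum_le_sum fun s' _ => mul_le_mul_of_nonneg_left (hs0 s' (mem_univ _)) (hw0 s')
    have h2 : ∀ k, ∑ s', w s' * Real.exp (Y k s') ≤ Real.exp (b ^ 2) := by
      intro k
      have a1 : ∀ s', w s' * Real.exp (Y k s') ≤ w s' * (1 + b ^ 2) + w s' * Y k s' := by
        intro s'
        by_cases h0 : w s' = 0
        · simp [h0]
        · have c1 := hY k s' h0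
          have c2 := (abs_le.1 (Real.abs_exp_sub_one_sub_id_le (c1.trans hb))).2
          have c3 : Y k s' ^ 2 ≤ b ^ 2 := by
            rw [← sq_abs]; exact pow_le_pow_left₀ (abs_nonneg _) c1 2
          rw [← mul_add]
          exact mul_le_mul_of_nonneg_left (by linarith) (hw0 s')
      refine (sum_le_sum fun s' _ => a1 s').trans ?_
      rw [sum_add_distrib, hmean, ← sum_mul, hw1]
      linarith [Real.add_one_le_exp (b ^ 2)]
    have h3 : ∑ s', w s' * F s' ≤ (∑ k, Real.exp (∑ i, Y k (s i))) * Real.exp (b ^ 2) := by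
      simp only [F, mul_sum]
      rw [sum_comm, sum_mul]
      refine sum_le_sum fun k _ => ?_
      have : ∑ s', w s' * (Real.exp (∑ i, Y k (s i)) * Real.exp (Y k s'))
          = Real.exp (∑ i, Y k (s i)) * ∑ s', w s' * Real.exp (Y k s') := by
        rw [mul_sum]; exact sum_congr rfl fun s' _ => by ring
      rw [this]
      exact mul_le_mul_of_nonneg_left (h2 k) (Real.exp_pos _).le
    refine ⟨Fin.cons s0 s, ?_⟩
    have h4 : ∑ k, Real.exp (∑ i, Y k ((Fin.cons s0 s : Fin (d + 1) → S) i)) = F s0 := by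
      refine sum_congr rfl fun k _ => ?_
      rw [Fin.sum_univ_succ, Real.exp_add, mul_comm]
      simp
    rw [h4]
    calc F s0 ≤ (∑ k, Real.exp (∑ i, Y k (s i))) * Real.exp (b ^ 2) := h1.trans h3
      _ ≤ (Fintype.card P * Real.exp (d * b ^ 2)) * Real.exp (b ^ 2) :=
          mul_le_mul_of_nonneg_right hs (Real.exp_pos _).le
      _ = _ := by rw [mul_assoc, ← Real.exp_add]; push_cast; ring_nf

lemma exists_samples {S P : Type*} [Fintype S] [Fintype P] (w : S → ℝ) (hw0 : ∀ s, 0 ≤ w s)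
    (hw1 : ∑ s, w s = 1) (Z : P → S → ℝ) (K ε : ℝ) (hK : 1 ≤ K) (hε0 : 0 < ε) (hε : ε ≤ 1)
    (hZ0 : ∀ k s, 0 ≤ Z k s) (hZ : ∀ k s, w s ≠ 0 → Z k s ≤ K) (d : ℕ) (hd0 : 0 < d)
    (hd : 4 * K ^ 2 * Real.log (2 * Fintype.card P) / ε ^ 2 ≤ d) :
    ∃ s : Fin d → S, ∀ k, |(∑ i, Z k (s i)) / d - ∑ s', w s' * Z k s'| ≤ ε := by
  have hK0 : 0 < K := by linarith
  have hd0' : (0 : ℝ) < d := by exact_mod_cast hd0
  let μ : P → ℝ := fun k => ∑ s', w s' * Z k s'
  have hμ0 : ∀ k, 0 ≤ μ k := fun k => sum_nonneg fun s _ => mul_nonneg (hw0 s) (hZ0 k s)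
  have hμ1 : ∀ k, μ k ≤ K := fun k => by
    calc μ k ≤ ∑ s', w s' * K := sum_le_sum fun s' _ => by
          by_cases h0 : w s' = 0
          · simp [h0]
          · exact mul_le_mul_of_nonneg_left (hZ k s' h0) (hw0 s')
      _ = K := by rw [← sum_mul, hw1, one_mul]
  set θ := ε / (2 * K ^ 2) with hθ
  have hθ0 : 0 < θ := by positivity
  let Y : P × Bool → S → ℝ := fun k s => (if k.2 then θ else -θ) * (Z k.1 s - μ k.1)
  obtain ⟨s, hs⟩ := exists_samples_exp w hw0 hw1 Y (θ * K)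
    (by rw [hθ, div_mul_eq_mul_div, div_le_one (by positivity)]; nlinarith)
    (fun k s h0 => by
      simp only [Y]
      rw [abs_mul]
      have a1 : |if k.2 then θ else -θ| = θ := by
        split_ifs
        · exact abs_of_pos hθ0
        · rw [abs_neg]; exact abs_of_pos hθ0
      rw [a1]
      refine mul_le_mul_of_nonneg_left (abs_le.2 ⟨?_, ?_⟩) hθ0.le
      · linarith [hZ0 k.1 s, hμ1 k.1]
      · linarith [hZ k.1 s h0, hμ0 k.1])
    (fun k => by
      have : ∀ s, w s * Y k s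
          = (if k.2 then θ else -θ) * (w s * Z k.1 s) - (if k.2 then θ else -θ) * μ k.1 * w s :=
        fun s => by simp only [Y]; ring
      simp_rw [this]
      rw [sum_sub_distrib, ← mul_sum, ← mul_sum, hw1]
      simp only [μ]; ring) d
  refine ⟨s, fun k => ?_⟩
  have hP : (0 : ℝ) < 2 * Fintype.card P := by
    have : 0 < Fintype.card P := Fintype.card_pos_iff.2 ⟨k⟩
    positivity
  have key : ∀ b : Bool, ∑ i, Y (k, b) (s i) ≤ d * θ * ε := by
    intro b
    have a1 : Real.exp (∑ i, Y (k, b) (s i)) ≤ ∑ k, Real.exp (∑ i, Y k (s i)) :=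
      single_le_sum (f := fun k => Real.exp (∑ i, Y k (s i))) (fun _ _ => (Real.exp_pos _).le)
        (mem_univ (k, b))
    have a2 : (Fintype.card (P × Bool) : ℝ) = Real.exp (Real.log (2 * Fintype.card P)) := by
      rw [Real.exp_log hP]; simp [mul_comm]
    rw [a2, ← Real.exp_add] at hs
    have a3 := Real.exp_le_exp.1 (a1.trans hs)
    have a4 : Real.log (2 * Fintype.card P) ≤ d * (ε ^ 2 / (4 * K ^ 2)) := by
      rw [div_le_iff₀ (by positivity)] at hd
      rw [← mul_div_assoc, le_div_iff₀ (by positivity)]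
      linarith
    have a5 : (θ * K) ^ 2 = ε ^ 2 / (4 * K ^ 2) := by rw [hθ]; field_simp; norm_num
    have a6 : d * θ * ε = 2 * (d * (ε ^ 2 / (4 * K ^ 2))) := by rw [hθ]; field_simp; norm_num
    rw [a5] at a3
    linarith
  have k1 := key true
  have k2 := key false
  simp only [Y, if_true, Bool.false_eq_true, if_false] at k1 k2
  rw [← mul_sum, sum_sub_distrib, sum_const, card_univ, Fintype.card_fin, nsmul_eq_mul] at k1 k2
  have e : (∑ i, Z k (s i)) / d - μ k = ((∑ i, Z k (s i)) - d * μ k) / d := by field_simp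
  change |(∑ i, Z k (s i)) / d - μ k| ≤ ε
  rw [e, abs_div, abs_of_pos hd0', div_le_iff₀ hd0', abs_le]
  constructor <;> nlinarith

section bern
variable {Ω : Type*} [Fintype Ω] [DecidableEq Ω]

/-- Product Bernoulli weights. -/
noncomputable def bw (q : Ω → ℝ) (B : Ω → Bool) : ℝ := ∏ ω, if B ω then q ω else 1 - q ω

/-- `θ` to the power of the number of selected points of `U`. -/
noncomputable def tw (θ : ℝ) (U : Finset Ω) (B : Ω → Bool) : ℝ := ∏ ω ∈ U, if B ω then θ else 1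

lemma bw_nonneg {q : Ω → ℝ} (h0 : ∀ ω, 0 ≤ q ω) (h1 : ∀ ω, q ω ≤ 1) (B : Ω → Bool) :
    0 ≤ bw q B := prod_nonneg fun ω _ => by
  split_ifs
  · exact h0 ω
  · linarith [h1 ω]

lemma bw_prod (q : Ω → ℝ) (F : Ω → Bool → ℝ) :
    ∑ B, bw q B * ∏ ω, F ω (B ω) = ∏ ω, (q ω * F ω true + (1 - q ω) * F ω false) := by
  have := prod_univ_sum (fun _ : Ω => (univ : Finset Bool))
    (fun ω b => (if b then q ω else 1 - q ω) * F ω b)
  simp only [Fintype.piFinset_univ, Fintype.sum_bool, if_true, Bool.false_eq_true, if_false] at this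
  rw [this]
  refine sum_congr rfl fun B _ => ?_
  rw [bw, ← prod_mul_distrib]

lemma bw_sum (q : Ω → ℝ) : ∑ B, bw q B = 1 := by
  have := bw_prod q (fun _ _ => 1)
  simpa using this

lemma bw_tw (q : Ω → ℝ) (θ : ℝ) (U : Finset Ω) :
    ∑ B, bw q B * tw θ U B = ∏ ω ∈ U, (1 + (θ - 1) * q ω) := by
  have := bw_prod q (fun ω b => if ω ∈ U then (if b then θ else 1) else 1)
  simp only [prod_ite_mem, univ_inter] at this
  rw [show (∑ B, bw q B * tw θ U B) = ∑ B, bw q B * ∏ ω ∈ U, if B ω then θ else 1 from rfl, this,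
    ← prod_subset (subset_univ U)]
  · refine prod_congr rfl fun ω hω => ?_
    simp only [hω, if_true, Bool.false_eq_true, if_false]; ring
  · intro ω _ hω
    simp only [hω, if_false]; ring

lemma bw_ind_tw (q : Ω → ℝ) (θ : ℝ) (U : Finset Ω) (ω0 : Ω) :
    ∑ B, bw q B * ((if B ω0 then 1 else 0) * tw θ (U.erase ω0) B)
      = q ω0 * ∏ ω ∈ U.erase ω0, (1 + (θ - 1) * q ω) := by
  have := bw_prod q (fun ω b => if ω = ω0 then (if b then 1 else 0)
    else if ω ∈ U then (if b then θ else 1) else 1)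
  have e1 : ∀ B : Ω → Bool, (∏ ω, if ω = ω0 then (if B ω then (1 : ℝ) else 0)
      else if ω ∈ U then (if B ω then θ else 1) else 1)
      = (if B ω0 then 1 else 0) * tw θ (U.erase ω0) B := by
    intro B
    rw [← mul_prod_erase univ _ (mem_univ ω0), if_pos rfl, tw]
    congr 1
    rw [← prod_subset (erase_subset_erase ω0 (subset_univ U))]
    · refine prod_congr rfl fun ω hω => ?_
      rw [mem_erase] at hω
      rw [if_neg hω.1, if_pos hω.2]
    · intro ω h1 h2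
      rw [mem_erase] at h1 h2
      have : ω ∉ U := fun hc => h2 ⟨h1.1, hc⟩
      rw [if_neg h1.1, if_neg this]
  simp_rw [e1] at this
  rw [this, ← mul_prod_erase univ _ (mem_univ ω0)]
  congr 1
  · simp
  · rw [← prod_subset (erase_subset_erase ω0 (subset_univ U))]
    · refine prod_congr rfl fun ω hω => ?_
      rw [mem_erase] at hω
      simp only [hω.1, hω.2, if_true, if_false, Bool.false_eq_true]; ring
    · intro ω h1 h2
      rw [mem_erase] at h1 h2
      have : ω ∉ U := fun hc => h2 ⟨h1.1, hc⟩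
      simp only [h1.1, this, if_false]; ring

omit [Fintype Ω] [DecidableEq Ω] in
lemma tw_eq_pow (θ : ℝ) (U : Finset Ω) (B : Ω → Bool) :
    tw θ U B = θ ^ (U.filter fun ω => B ω = true).card := by
  rw [tw, prod_ite, prod_const, prod_const_one, mul_one]

omit [Fintype Ω] [DecidableEq Ω] in
lemma prod_one_add_le_exp (q : Ω → ℝ) (h0 : ∀ ω, 0 ≤ q ω) (U : Finset Ω) :
    ∏ ω ∈ U, (1 + (2 - 1) * q ω) ≤ Real.exp (∑ ω ∈ U, q ω) := by
  rw [Real.exp_sum]
  refine prod_le_prod (fun ω _ => by linarith [h0 ω]) fun ω _ => ?_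
  linarith [Real.add_one_le_exp (q ω)]

omit [Fintype Ω] in
lemma one_sub_sum_le_prod (q : Ω → ℝ) (h0 : ∀ ω, 0 ≤ q ω) (h1 : ∀ ω, q ω ≤ 1) (U : Finset Ω) :
    1 - ∑ ω ∈ U, q ω ≤ ∏ ω ∈ U, (1 + (0 - 1) * q ω) := by
  induction U using Finset.induction_on with
  | empty => simp
  | insert a s ha ih =>
    rw [sum_insert ha, prod_insert ha]
    have h2 : 0 ≤ ∑ ω ∈ s, q ω := sum_nonneg fun ω _ => h0 ω
    have h3 := mul_le_mul_of_nonneg_left ih (by linarith [h1 a] : 0 ≤ 1 + (0 - 1) * q a)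
    nlinarith [h0 a]

lemma exists_pow_bound {p : ℝ} (hp : 1 ≤ p) : ∃ C : ℝ, 0 ≤ C ∧
    ∀ k : ℕ, ((k + 1 : ℕ) : ℝ) ^ (p - 1) ≤ 1 + C * (2 ^ k - 1) := by
  set m := ⌈p⌉₊ with hm
  have hl : 0 < Real.log 2 := Real.log_pos (by norm_num)
  refine ⟨4 * (m.factorial : ℝ) / Real.log 2 ^ m, by positivity, fun k => ?_⟩
  rcases Nat.eq_zero_or_pos k with rfl | hk
  · simp
  have h1 : ((k + 1 : ℕ) : ℝ) ^ (p - 1) ≤ ((k + 1 : ℕ) : ℝ) ^ m := by
    rw [← Real.rpow_natCast]
    refine Real.rpow_le_rpow_of_exponent_le (by push_cast; linarith [Nat.cast_nonneg (α := ℝ) k]) ?_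
    linarith [Nat.le_ceil p]
  have h2 := Real.pow_div_factorial_le_exp (((k + 1 : ℕ) : ℝ) * Real.log 2) (by positivity) m
  rw [Real.exp_nat_mul, Real.exp_log (by norm_num), mul_pow,
    div_le_iff₀ (by positivity), pow_succ] at h2
  have h3 : (2 : ℝ) ≤ 2 ^ k := by
    have := pow_le_pow_right₀ (by norm_num : (1 : ℝ) ≤ 2) hk
    simpa using this
  have h4 : ((k + 1 : ℕ) : ℝ) ^ m ≤ 4 * (m.factorial : ℝ) / Real.log 2 ^ m * (2 ^ k - 1) := by
    rw [div_mul_eq_mul_div, le_div_iff₀ (by positivity)]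
    have : (0 : ℝ) < m.factorial := by positivity
    nlinarith
  linarith

omit [Fintype Ω] in
lemma sel_upper {p C : ℝ} (hp : 1 ≤ p)
    (hC : ∀ k : ℕ, ((k + 1 : ℕ) : ℝ) ^ (p - 1) ≤ 1 + C * (2 ^ k - 1))
    (U : Finset Ω) (a : Ω → ℝ) (B : Ω → Bool) :
    |∑ ω ∈ U, (if B ω then 1 else 0) * a ω| ^ p
      ≤ ∑ ω ∈ U, |a ω| ^ p * ((1 - C) * (if B ω then 1 else 0)
        + C * ((if B ω then 1 else 0) * tw 2 (U.erase ω) B)) := by
  set A := U.filter fun ω => B ω = true with hA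
  have e1 : ∑ ω ∈ U, (if B ω then 1 else 0) * a ω = ∑ ω ∈ A, a ω := by
    rw [hA, sum_filter]
    exact sum_congr rfl fun ω _ => by split_ifs <;> simp
  have e2 : ∑ ω ∈ U, |a ω| ^ p * ((1 - C) * (if B ω then 1 else 0)
        + C * ((if B ω then 1 else 0) * tw 2 (U.erase ω) B))
      = ∑ ω ∈ A, |a ω| ^ p * (1 + C * (2 ^ (A.card - 1) - 1)) := by
    rw [hA, sum_filter]
    refine sum_congr rfl fun ω hω => ?_
    split_ifs with hB
    · rw [tw_eq_pow, filter_erase, card_erase_of_mem (mem_filter.2 ⟨hω, hB⟩)]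
      ring
    · simp
  rw [e1, e2]
  have h1 : |∑ ω ∈ A, a ω| ^ p ≤ (∑ ω ∈ A, |a ω|) ^ p :=
    Real.rpow_le_rpow (abs_nonneg _) (abs_sum_le_sum_abs _ _) (by linarith)
  refine h1.trans ((Real.rpow_sum_le_const_mul_sum_rpow A a hp).trans ?_)
  rw [mul_sum]
  refine sum_le_sum fun ω hω => ?_
  have h2 : A.card - 1 + 1 = A.card := Nat.sub_add_cancel (card_pos.2 ⟨ω, hω⟩)
  have h3 := hC (A.card - 1)
  rw [h2] at h3
  rw [mul_comm]
  exact mul_le_mul_of_nonneg_left h3 (Real.rpow_nonneg (abs_nonneg _) _)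

omit [Fintype Ω] in
lemma sel_lower {p K : ℝ} (hK : 0 ≤ K) (U : Finset Ω) (a : Ω → ℝ) (ha : ∀ ω, |a ω| ^ p ≤ K)
    (B : Ω → Bool) :
    ∑ ω ∈ U, |a ω| ^ p * ((if B ω then 1 else 0) * tw 0 (U.erase ω) B)
      ≤ min K (|∑ ω ∈ U, (if B ω then 1 else 0) * a ω| ^ p) := by
  set A := U.filter fun ω => B ω = true with hA
  have e1 : ∑ ω ∈ U, (if B ω then 1 else 0) * a ω = ∑ ω ∈ A, a ω := by
    rw [hA, sum_filter]
    exact sum_congr rfl fun ω _ => by split_ifs <;> simp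
  have e2 : ∑ ω ∈ U, |a ω| ^ p * ((if B ω then 1 else 0) * tw 0 (U.erase ω) B)
      = ∑ ω ∈ A, |a ω| ^ p * 0 ^ (A.card - 1) := by
    rw [hA, sum_filter]
    refine sum_congr rfl fun ω hω => ?_
    split_ifs with hB
    · rw [tw_eq_pow, filter_erase, card_erase_of_mem (mem_filter.2 ⟨hω, hB⟩), one_mul]
    · simp
  rw [e1, e2]
  by_cases h1 : A.card = 1
  · obtain ⟨ω, hω⟩ := card_eq_one.1 h1
    rw [h1, hω]
    simp [ha ω]
  · have : ∑ ω ∈ A, |a ω| ^ p * (0 : ℝ) ^ (A.card - 1) = 0 := by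
      refine sum_eq_zero fun ω hω => ?_
      have : 0 < A.card := card_pos.2 ⟨ω, hω⟩
      rw [zero_pow (by omega), mul_zero]
    rw [this]
    exact le_min hK (Real.rpow_nonneg (abs_nonneg _) _)

omit [Fintype Ω] [DecidableEq Ω] in
lemma sel_bound {p K : ℝ} (hp : 1 ≤ p) (hK : 0 ≤ K) (U : Finset Ω) (a : Ω → ℝ)
    (ha : ∀ ω, |a ω| ^ p ≤ K) (B : Ω → Bool) (N : ℕ)
    (hN : (U.filter fun ω => B ω = true).card ≤ N) :
    |∑ ω ∈ U, (if B ω then 1 else 0) * a ω| ^ p ≤ (N : ℝ) ^ p * K := by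
  set A := U.filter fun ω => B ω = true with hA
  have e1 : ∑ ω ∈ U, (if B ω then 1 else 0) * a ω = ∑ ω ∈ A, a ω := by
    rw [hA, sum_filter]
    exact sum_congr rfl fun ω _ => by split_ifs <;> simp
  rw [e1]
  have hp0 : 0 < p := by linarith
  have h0 : ∀ ω, |a ω| ≤ K ^ (1 / p) := fun ω => by
    refine (Real.rpow_le_rpow_iff (abs_nonneg _) (Real.rpow_nonneg hK _) hp0).1 ?_
    rw [← Real.rpow_mul hK, one_div_mul_cancel hp0.ne', Real.rpow_one]
    exact ha ω
  have h1 : |∑ ω ∈ A, a ω| ≤ N * K ^ (1 / p) := by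
    refine (abs_sum_le_sum_abs _ _).trans ((sum_le_card_nsmul _ _ _ fun ω _ => h0 ω).trans ?_)
    rw [nsmul_eq_mul]
    exact mul_le_mul_of_nonneg_right (by exact_mod_cast hN) (Real.rpow_nonneg hK _)
  refine (Real.rpow_le_rpow (abs_nonneg _) h1 hp0.le).trans (le_of_eq ?_)
  rw [Real.mul_rpow (Nat.cast_nonneg _) (Real.rpow_nonneg hK _), ← Real.rpow_mul hK,
    one_div_mul_cancel hp0.ne', Real.rpow_one]

end bern

end Vale.Agent.P249
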